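-- KEEP
import Claimed.Agent.R289.Defs.Bulk
import Claimed.Agent.R289.Pl.Rim
import Claimed.Agent.R289.S6b.Main
import Claimed.Agent.R289.Mesh.Net

/-!
# Row 289 (S0537, Cardy for Poisson-Voronoi), box CR, part CR.B = THE INSTANCE OF `PvbIn` AND THE EXIT `PvTransport`      (sub-head helper161; head of the box helper7; prefix `l9_`, `L9`, `PvBulk.enc ..`)

Blueprint: `origin/helper7:notes/R289/LM_7.md` (LM.1-LM.3, LM.T), `origin/helper210:notes/R289/s6b_210.md` (E1-E5).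
CHAIN:   typed exits  `L9ExitBes` (E1: S1P 244 + MESH 127),  `L9ExitArm` (E2 E3: ARM / S2, 241 237 84),  `L9ExitTR` (E4 E5: THE WALL, 208 295 273 125)
         ⟹ `l9_inst : PvbIn ..`  ⟹ `pvb_transport` (S6b/Main, 56, PROVED)  ⟹ `l9_joint` (two-level upper probability of the bad event → 0)  ⟹ `l9_quench`  ⟹ `l9_transport : PvTransport` (Defs/Bulk, 163;  wired in `Exit/Transport.lean`).

* sample space `L9Om X = PvGeoT × (PvColT × (X → Bool))` (labelled geometry × (colours of the sites × coins of the extra vertices)), `l9Sm : L9Om X → PVSample × (X → Bool)`.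
* probability = the TWO-LEVEL UPPER EXPECTATION `l9Up X ε = PvUp.iter (pvGeo ε) (pvCol ⊗ colLaw X)` (`Defs/Up.lean`, ruling of 163): upper integral over the colours at fixed geometry, then upper integral over the geometry.
  NO measurability of anything is asked: a bulk family is an arbitrary function of the site set.      INPUTS: `l9_up_le` (events of the sample alone: `≤ pvLaw ε`), `pvup_iter_P_le`, `pvup_iter_E_le`, `pvup_iter_E_quenched` (Bessel at fixed geometry).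
* `𝔅.enc Y zi c : PvbRim`   encoding of a rim `c : (𝔅.T Y).Cyc`: the extra vertices sit at the far point `zi = x + 7R`, faces with an extra vertex carry the field values `0` and the barycentre `zi`.
* `𝔅.rims x R p`            the encodings of the rims which are cut at a vertex outside `B(x,4R)` (empty unless `Adm` and `Ok (closedBall x 6R)`).
* `L9Fine Y K μ`            the Delaunay triangles with a vertex or their barycentre in `K` have sides `≤ μ`.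
-/

set_option autoImplicit false

namespace Claimed.Agent.R289

open MeasureTheory ProbabilityTheory Set Filter Topology Claims.C0465
open scoped ContDiff ENNReal

/-! ## 1. the encoding -/

namespace PvBulk

variable {X : Type} (𝔅 : PvBulk X)

/-- position of a vertex, the extra vertices at the far point `zi` -/
def posF (Y : Set ℂ) (zi : ℂ) (v : 𝔅.V Y) : ℂ := Sum.elim id (fun _ => zi) (𝔅.lab Y v)

open Classical in
/-- encoding of a simple primal cycle (component on the left, tags `opp (c.e k)` on the right) -/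
noncomputable def enc (Y : Set ℂ) (zi : ℂ) (c : (𝔅.T Y).Cyc) : PvbRim where
  len := c.n
  v := fun k => 𝔅.posF Y zi ((𝔅.T Y).src (c.e k))
  z := fun k => if 𝔅.Emb Y ((𝔅.T Y).opp (c.e k)) then (𝔅.T Y).bary (𝔅.pos Y) ((𝔅.T Y).opp (c.e k)) else zi
  xQ := fun k => if 𝔅.Emb Y ((𝔅.T Y).opp (c.e k)) then (𝔅.T Y).qpart (𝔅.pos Y) ((𝔅.T Y).opp (c.e k)) else 0
  xV := fun k => if 𝔅.Emb Y ((𝔅.T Y).opp (c.e k)) then (𝔅.T Y).side (𝔅.pos Y) ((𝔅.T Y).opp (c.e k)) else 0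

/-- the encodings of the rims of the colouring `s` cut at a vertex outside `B(x,4R)` -/
def rimsAt (Y : Set ℂ) (s : 𝔅.V Y → Bool) (x : ℂ) (R : ℝ) : Set PvbRim :=
  {P | ∃ c : (𝔅.T Y).Cyc, c.IsRim s ∧ 4 * R ≤ ‖𝔅.posF Y (x + 7 * R) ((𝔅.T Y).src (c.e 0)) - x‖ ∧ P = 𝔅.enc Y (x + 7 * R) c}

/-- the reaching rims of the sample `p` -/
def rims (x : ℂ) (R : ℝ) (p : PVSample × (X → Bool)) : Set PvbRim :=
  {P | 𝔅.Adm (cfSites (pvConf p.1)) ∧ 𝔅.Ok (cfSites (pvConf p.1)) (Metric.closedBall x (6 * R)) ∧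
    P ∈ 𝔅.rimsAt (cfSites (pvConf p.1)) (𝔅.col (pvConf p.1) p.2) x R}

end PvBulk

/-- the Delaunay triangles with a vertex or their barycentre in `K` have sides `≤ μ` -/
def L9Fine (Y K : Set ℂ) (μ : ℝ) : Prop :=
  ∀ a b c : ℂ, DelTri Y a b c → (a ∈ K ∨ b ∈ K ∨ c ∈ K ∨ (a + b + c) / 3 ∈ K) → ‖b - a‖ ≤ μ ∧ ‖c - a‖ ≤ μ ∧ ‖c - b‖ ≤ μ

/-- the sample space: labelled geometry × (colours of the sites × coins of the extra vertices) -/
abbrev L9Om (X : Type) := PvGeoT × (PvColT × (X → Bool))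

/-- the sample and the coins -/
def l9Sm {X : Type} (w : L9Om X) : PVSample × (X → Bool) := (pvMerge (w.1, w.2.1), w.2.2)

instance l9_colLaw_prob (X : Type) : IsProbabilityMeasure (colLaw X) := by unfold colLaw; infer_instance

/-- the two-level upper expectation: colours and coins at fixed geometry, then the geometry -/
noncomputable def l9Up (X : Type) (ε : ℝ) : PvUp (L9Om X) := PvUp.iter (pvGeo ε) (pvCol.prod (colLaw X))

theorem l9_eqns_cite : True := by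
  have := @PvBulk.posF.eq_1; have := @PvBulk.enc.eq_1; have := @PvBulk.rimsAt.eq_1; have := @PvBulk.rims.eq_1
  have := @L9Fine.eq_1; have := @l9Sm.eq_1; have := @l9Up.eq_1
  trivial

/-! ## 2. deterministic lemmas (LM.1) -/

section det

variable {V D : Type} {T : PvMap V D}

/-- the label sum does not depend on the tag -/
theorem l9_lsum_congr {s : V → Bool} (w : D → ℂ) {d d' : D} (h : T.SameLab s d d') : T.lsum s w d = T.lsum s w d' := by
  unfold PvMap.lsum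
  have : ∀ x, T.SameLab s d x ↔ T.SameLab s d' x := fun x =>
    ⟨fun hx => pl_ra_lab_trans (pl_ra_lab_symm h) hx, fun hx => pl_ra_lab_trans h hx⟩
  simp only [this]

/-- the label sum along a rim -/
theorem l9_lsum_rim {s : V → Bool} {c : T.Cyc} (h : c.IsRim s) (w : D → ℂ) :
    T.lsum s w (T.opp (c.e 0)) = ∑ k ∈ Finset.range c.n, w (T.opp (c.e k)) := by
  classical
  unfold PvMap.lsum
  have hinj : Set.InjOn (fun k => T.opp (c.e k)) (Finset.range c.n : Set ℕ) := by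
    intro i hi j hj hij
    have hi' : i < c.n := by simpa using hi
    have hj' : j < c.n := by simpa using hj
    exact c.inj i j hi' hj' (by rw [T.opp_injective hij])
  have hset : {d' | T.SameLab s (T.opp (c.e 0)) d'} = ((Finset.range c.n).image (fun k => T.opp (c.e k)) : Finset D) := by
    ext d'
    simp only [Set.mem_ofPred_eq, Finset.coe_image, Set.mem_image, Finset.coe_range, Set.mem_Iio]
    rw [h.2.2 d']
    constructor
    · rintro ⟨i, rfl⟩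
      exact ⟨i % c.n, Nat.mod_lt _ (pl_cyc_pos c), by rw [pl_cyc_mod]⟩
    · rintro ⟨i, -, rfl⟩
      exact ⟨i, rfl⟩
  have h1 : (∑ᶠ (d' : D) (_ : T.SameLab s (T.opp (c.e 0)) d'), w d') = ∑ᶠ (d' : D) (_ : d' ∈ {d' | T.SameLab s (T.opp (c.e 0)) d'}), w d' := rfl
  rw [h1, hset, finsum_mem_coe_finset, Finset.sum_image hinj]

/-- a rim may be cut at any of its vertices -/
theorem l9_rim_shift {s : V → Bool} {c : T.Cyc} (h : c.IsRim s) (j : ℕ) : ∃ c' : T.Cyc, c'.IsRim s ∧ c'.e 0 = c.e j := by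
  have he0 : (c.shift j).e 0 = c.e j := by show c.e (0 + j) = c.e j; rw [Nat.zero_add]
  refine ⟨c.shift j, ?_, he0⟩
  have hlab : T.SameLab s (T.opp (c.e 0)) (T.opp (c.e j)) := pl_rim_lab h j
  have h0L : c.e 0 ∈ c.Left := Relation.ReflTransGen.refl
  have hC : ¬ T.Wall s (T.opp (c.e 0)) (T.opp (T.opp (c.e 0))) := by
    rw [T.opp_opp]
    rw [h.2.1] at h0L
    exact h0L.2
  have hj := (pl_ra_A_of_lab hC hlab).1
  rw [T.opp_opp, ← h.2.1] at hj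
  have hj' : T.DJoin c.darts (c.e 0) (c.e j) := hj
  unfold PvMap.Cyc.IsRim
  rw [he0]
  refine ⟨pl_rim_tag h j, ?_, ?_⟩
  · have hL : (c.shift j).Left = c.Left := by
      ext x
      show T.DJoin (c.shift j).darts ((c.shift j).e 0) x ↔ T.DJoin c.darts (c.e 0) x
      rw [pl_cyc_shift_darts, he0]
      exact ⟨fun hx => Relation.ReflTransGen.trans hj' hx, fun hx => Relation.ReflTransGen.trans (T.djoin_symm hj') hx⟩
    rw [hL, h.2.1]
    ext x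
    unfold plRaA
    simp only [Set.mem_ofPred_eq]
    rw [pl_ra_wall_congr hlab.2.2.1 x]
    have hc : T.CStep s (T.opp (c.e 0)) = T.CStep s (T.opp (c.e j)) := pl_ra_cstep_congr hlab.2.2.1
    have hin : Relation.ReflTransGen (T.CStep s (T.opp (c.e 0))) (T.opp (c.e 0)) (T.opp (c.e j)) := hlab.2.2.2
    have : T.InComp s (T.opp (c.e 0)) x ↔ T.InComp s (T.opp (c.e j)) x := by
      unfold PvMap.InComp
      rw [← hc]
      exact ⟨fun hx => Relation.ReflTransGen.trans (pl_ra_rtg_symm (pl_ra_cstep_symm s _) hin) hx, fun hx => Relation.ReflTransGen.trans hin hx⟩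
    rw [this]
  · intro d'
    have h1 : T.SameLab s (T.opp (c.e j)) d' ↔ T.SameLab s (T.opp (c.e 0)) d' :=
      ⟨fun hx => pl_ra_lab_trans hlab hx, fun hx => pl_ra_lab_trans (pl_ra_lab_symm hlab) hx⟩
    rw [h1, h.2.2 d']
    have hd := pl_cyc_shift_darts c j
    constructor
    · rintro ⟨i, rfl⟩
      have : c.e i ∈ (c.shift j).darts := by rw [hd]; exact ⟨i, rfl⟩
      obtain ⟨k, hk⟩ := this
      exact ⟨k, by rw [hk]⟩
    · rintro ⟨i, rfl⟩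
      exact ⟨i + j, rfl⟩

end det

section enc

variable {X : Type} (𝔅 : PvBulk X) {Y : Set ℂ}

theorem l9_enc_fldQ (zi : ℂ) (c : (𝔅.T Y).Cyc) (f : ℂ → ℂ) :
    (𝔅.enc Y zi c).fld (𝔅.enc Y zi c).xQ f = ∑ k ∈ Finset.range c.n, 𝔅.wQ Y f ((𝔅.T Y).opp (c.e k)) := by
  unfold PvbRim.fld PvBulk.wQ PvBulk.enc
  refine Finset.sum_congr rfl fun k _ => ?_
  by_cases hE : 𝔅.Emb Y ((𝔅.T Y).opp (c.e k))
  · simp only [if_pos hE]
  · simp only [if_neg hE, mul_zero]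

theorem l9_enc_fldV (zi : ℂ) (c : (𝔅.T Y).Cyc) (f : ℂ → ℂ) :
    (𝔅.enc Y zi c).fld (𝔅.enc Y zi c).xV f = ∑ k ∈ Finset.range c.n, 𝔅.wV Y f ((𝔅.T Y).opp (c.e k)) := by
  unfold PvbRim.fld PvBulk.wV PvBulk.enc
  refine Finset.sum_congr rfl fun k _ => ?_
  by_cases hE : 𝔅.Emb Y ((𝔅.T Y).opp (c.e k))
  · simp only [if_pos hE]
  · simp only [if_neg hE, mul_zero]

theorem l9_posF_inl {zi : ℂ} {v : 𝔅.V Y} {a : ℂ} (h : 𝔅.lab Y v = Sum.inl a) : 𝔅.posF Y zi v = a := by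
  unfold PvBulk.posF; rw [h]; rfl

theorem l9_pos_inl {v : 𝔅.V Y} {a : ℂ} (h : 𝔅.lab Y v = Sum.inl a) : 𝔅.pos Y v = a := by
  unfold PvBulk.pos; rw [h]; rfl

theorem l9_posF_near {x : ℂ} {R : ℝ} (hR : 0 < R) {v : 𝔅.V Y} (h : ‖𝔅.posF Y (x + 7 * R) v - x‖ ≤ 5 * R) :
    ∃ a, 𝔅.lab Y v = Sum.inl a ∧ a ∈ Metric.closedBall x (6 * R) := by
  rcases hl : 𝔅.lab Y v with a | e
  · refine ⟨a, rfl, ?_⟩
    rw [l9_posF_inl 𝔅 hl] at h
    rw [Metric.mem_closedBall, dist_eq_norm]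
    linarith
  · exfalso
    have : 𝔅.posF Y (x + 7 * R) v = x + 7 * R := by unfold PvBulk.posF; rw [hl]; rfl
    rw [this] at h
    have h2 : ‖x + 7 * (R : ℂ) - x‖ = 7 * R := by
      have : x + 7 * (R : ℂ) - x = ((7 * R : ℝ) : ℂ) := by push_cast; ring
      rw [this, Complex.norm_real, Real.norm_eq_abs, abs_of_pos (by positivity)]
    rw [h2] at h
    linarith

theorem l9_bary_le {a b c : ℂ} {μ : ℝ} (h1 : ‖b - a‖ ≤ μ) (h2 : ‖c - a‖ ≤ μ) (p : ℂ) (hp : p = (a + b + c) / 3) : ‖p - a‖ ≤ μ := by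
  have h0 : 0 ≤ μ := (norm_nonneg _).trans h1
  have : p - a = ((b - a) + (c - a)) / 3 := by rw [hp]; ring
  rw [this, norm_div]
  have h3 : ‖(3 : ℂ)‖ = 3 := by simp
  rw [h3, div_le_iff₀ (by norm_num)]
  calc ‖(b - a) + (c - a)‖ ≤ ‖b - a‖ + ‖c - a‖ := norm_add_le _ _
    _ ≤ μ * 3 := by linarith

/-- closed, far, mesh: the model-free half of `PvbRimGood` -/
theorem l9_enc_mesh {x : ℂ} {R μ : ℝ} (hR : 0 < R) (hμ : μ ≤ R) (hOk : 𝔅.Ok Y (Metric.closedBall x (6 * R))) (hF : L9Fine Y (Metric.closedBall x (6 * R)) μ)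
    {s : 𝔅.V Y → Bool} {P : PvbRim} (hP : P ∈ 𝔅.rimsAt Y s x R) :
    P.v P.len = P.v 0 ∧ 4 * R ≤ ‖P.v 0 - x‖ ∧
      (∀ k < P.len, (‖P.v k - x‖ ≤ 5 * R ∨ ‖P.v (k + 1) - x‖ ≤ 5 * R) → ‖P.v (k + 1) - P.v k‖ ≤ μ) ∧
      (∀ k < P.len, (‖P.v k - x‖ ≤ 5 * R ∨ ‖P.z k - x‖ ≤ 5 * R) → ‖P.z k - P.v k‖ ≤ μ) := by
  obtain ⟨c, -, hfar, rfl⟩ := hP
  classical
  have hv : ∀ k, (𝔅.enc Y (x + 7 * R) c).v k = 𝔅.posF Y (x + 7 * R) ((𝔅.T Y).src (c.e k)) := fun k => rfl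
  have hlen : (𝔅.enc Y (x + 7 * R) c).len = c.n := rfl
  refine ⟨?_, hfar, ?_, ?_⟩
  · rw [hv, hv, hlen]
    have := c.per 0
    rw [Nat.zero_add] at this
    rw [this]
  · intro k _ hk
    rw [hv, hv] at hk ⊢
    rcases hk with hk | hk
    · obtain ⟨a, ha, haK⟩ := l9_posF_near 𝔅 hR hk
      obtain ⟨b, c', hb, -, hD⟩ := hOk.del (c.e k) a ha haK
      rw [c.chain] at hb
      rw [l9_posF_inl 𝔅 ha, l9_posF_inl 𝔅 hb]
      exact (hF a b c' hD (Or.inl haK)).1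
    · obtain ⟨b, hb, hbK⟩ := l9_posF_near 𝔅 hR hk
      have hs : (𝔅.T Y).src ((𝔅.T Y).opp (c.e k)) = (𝔅.T Y).src (c.e (k + 1)) := by rw [(𝔅.T Y).src_opp', c.chain]
      obtain ⟨a, c', ha, -, hD⟩ := hOk.del ((𝔅.T Y).opp (c.e k)) b (by rw [hs]; exact hb) hbK
      rw [(𝔅.T Y).tgt_opp] at ha
      rw [l9_posF_inl 𝔅 ha, l9_posF_inl 𝔅 hb, norm_sub_rev]
      exact (hF b a c' hD (Or.inl hbK)).1
  · intro k _ hk
    have hz : (𝔅.enc Y (x + 7 * R) c).z k = if 𝔅.Emb Y ((𝔅.T Y).opp (c.e k)) then (𝔅.T Y).bary (𝔅.pos Y) ((𝔅.T Y).opp (c.e k)) else x + 7 * R := rfl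
    rw [hv, hz] at hk ⊢
    rcases hk with hk | hk
    · obtain ⟨a, ha, haK⟩ := l9_posF_near 𝔅 hR hk
      have hs : (𝔅.T Y).src ((𝔅.T Y).nxt ((𝔅.T Y).opp (c.e k))) = (𝔅.T Y).src (c.e k) := by rw [(𝔅.T Y).src_nxt, (𝔅.T Y).tgt_opp]
      obtain ⟨b, c', hb, hc', hD⟩ := hOk.del ((𝔅.T Y).nxt ((𝔅.T Y).opp (c.e k))) a (by rw [hs]; exact ha) haK
      rw [(𝔅.T Y).tgt_nxt] at hb
      rw [(𝔅.T Y).apex_nxt] at hc'
      have ha' : 𝔅.lab Y ((𝔅.T Y).tgt ((𝔅.T Y).opp (c.e k))) = Sum.inl a := by rw [(𝔅.T Y).tgt_opp]; exact ha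
      have hE : 𝔅.Emb Y ((𝔅.T Y).opp (c.e k)) := ⟨c', a, b, hc', ha', hb⟩
      rw [if_pos hE, l9_posF_inl 𝔅 ha]
      have hh := hF a b c' hD (Or.inl haK)
      refine l9_bary_le hh.1 hh.2.1 _ ?_
      unfold PvMap.bary
      rw [l9_pos_inl 𝔅 hc', l9_pos_inl 𝔅 ha', l9_pos_inl 𝔅 hb]
      ring
    · by_cases hE : 𝔅.Emb Y ((𝔅.T Y).opp (c.e k))
      · rw [if_pos hE] at hk ⊢
        obtain ⟨a', b', c', ha', hb', hc'⟩ := hE
        have hD := hOk.emb _ a' b' c' ha' hb' hc'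
        have hbar : (𝔅.T Y).bary (𝔅.pos Y) ((𝔅.T Y).opp (c.e k)) = (a' + b' + c') / 3 := by
          unfold PvMap.bary
          rw [l9_pos_inl 𝔅 ha', l9_pos_inl 𝔅 hb', l9_pos_inl 𝔅 hc']
        rw [hbar] at hk ⊢
        have hK : (a' + b' + c') / 3 ∈ Metric.closedBall x (6 * R) := by
          rw [Metric.mem_closedBall, dist_eq_norm]; linarith
        have hh := hF a' b' c' hD (Or.inr (Or.inr (Or.inr hK)))
        rw [(𝔅.T Y).tgt_opp] at hb'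
        rw [l9_posF_inl 𝔅 hb']
        refine l9_bary_le (a := b') (b := a') (c := c') (by rw [norm_sub_rev]; exact hh.1) hh.2.2 _ (by ring)
      · exfalso
        rw [if_neg hE] at hk
        have h2 : ‖x + 7 * (R : ℂ) - x‖ = 7 * R := by
          have : x + 7 * (R : ℂ) - x = ((7 * R : ℝ) : ℂ) := by push_cast; ring
          rw [this, Complex.norm_real, Real.norm_eq_abs, abs_of_pos (by positivity)]
        rw [h2] at hk
        linarith

/-- on fine mesh the summands of a face with a far (or extra) vertex on its base vanish -/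
theorem l9q_far_zero {x : ℂ} {R μ : ℝ} {f : ℂ → ℂ} (hR : 0 < R) (hμ : μ ≤ R / 4) (hf : ∀ w, R ≤ ‖w - x‖ → f w = 0)
    (hOk : 𝔅.Ok Y (Metric.closedBall x (6 * R))) (hF : L9Fine Y (Metric.closedBall x (6 * R)) μ) (e : 𝔅.D Y)
    (hfar : (∀ p, 𝔅.lab Y ((𝔅.T Y).src e) = Sum.inl p → p ∉ Metric.ball x (4 * R)) ∨
      (∀ p, 𝔅.lab Y ((𝔅.T Y).tgt e) = Sum.inl p → p ∉ Metric.ball x (4 * R))) :
    𝔅.wQ Y f e = 0 ∧ 𝔅.wV Y f e = 0 := by
  classical
  unfold PvBulk.wQ PvBulk.wV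
  by_cases hE : 𝔅.Emb Y e
  · rw [if_pos hE, if_pos hE]
    obtain ⟨a, b, c, ha, hb, hc⟩ := hE
    have hD := hOk.emb e a b c ha hb hc
    have hbary : (𝔅.T Y).bary (𝔅.pos Y) e = (a + b + c) / 3 := by
      unfold PvMap.bary PvBulk.pos
      rw [ha, hb, hc]
      rfl
    have hz : f ((𝔅.T Y).bary (𝔅.pos Y) e) = 0 := by
      rw [hbary]
      apply hf
      by_contra hcon
      have hcon : ‖(a + b + c) / 3 - x‖ < R := not_le.1 hcon
      have hK : (a + b + c) / 3 ∈ Metric.closedBall x (6 * R) := by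
        rw [mem_closedBall_iff_norm]; linarith
      obtain ⟨u1, u2, u3⟩ := hF a b c hD (Or.inr (Or.inr (Or.inr hK)))
      rcases hfar with h | h
      · have h1 := h a ha
        rw [mem_ball_iff_norm, not_lt] at h1
        have e1 : a - x = ((-1 / 3 : ℝ) : ℂ) * ((b - a) + (c - a)) + ((a + b + c) / 3 - x) := by
          push_cast; ring
        have h2 := norm_add_le (((-1 / 3 : ℝ) : ℂ) * ((b - a) + (c - a))) ((a + b + c) / 3 - x)
        rw [← e1, norm_mul, Complex.norm_real, Real.norm_eq_abs] at h2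
        have h3 := norm_add_le (b - a) (c - a)
        have h4 : |(-1 / 3 : ℝ)| = 1 / 3 := by rw [abs_of_nonpos (by norm_num)]; norm_num
        rw [h4] at h2
        linarith
      · have h1 := h b hb
        rw [mem_ball_iff_norm, not_lt] at h1
        have e1 : b - x = ((1 / 3 : ℝ) : ℂ) * ((b - a) + (-(c - b))) + ((a + b + c) / 3 - x) := by
          push_cast; ring
        have h2 := norm_add_le (((1 / 3 : ℝ) : ℂ) * ((b - a) + (-(c - b)))) ((a + b + c) / 3 - x)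
        rw [← e1, norm_mul, Complex.norm_real, Real.norm_eq_abs] at h2
        have h3 := norm_add_le (b - a) (-(c - b))
        rw [norm_neg] at h3
        have h4 : |(1 / 3 : ℝ)| = 1 / 3 := abs_of_nonneg (by norm_num)
        rw [h4] at h2
        linarith
    rw [hz, zero_mul, zero_mul]
    exact ⟨rfl, rfl⟩
  · rw [if_neg hE, if_neg hE]
    exact ⟨rfl, rfl⟩

/-- the deterministic core of `l9_bad_sub` -/
theorem l9q_bad_core {s : 𝔅.V Y → Bool} {a x : ℂ} {R μ τ : ℝ} {f : ℂ → ℂ} (hR : 0 < R) (hμ : μ ≤ R / 4) (hτ : 0 ≤ τ) (hf : ∀ w, R ≤ ‖w - x‖ → f w = 0)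
    (hOk : 𝔅.Ok Y (Metric.closedBall x (6 * R))) (hfin : Finite (𝔅.D Y)) (hF : L9Fine Y (Metric.closedBall x (6 * R)) μ)
    {d : 𝔅.D Y} (hTag : (𝔅.T Y).Tag s d) (hEsc : 𝔅.Esc Y s (Metric.ball x (4 * R)) d)
    (hb : τ < ‖(𝔅.T Y).lsum s (𝔅.wQ Y f) d - a * (𝔅.T Y).lsum s (𝔅.wV Y f) d‖) :
    ∃ P ∈ 𝔅.rimsAt Y s x R, τ < ‖P.fld P.xQ f - a * P.fld P.xV f‖ := by
  obtain ⟨d', hlab, hfar⟩ := hEsc
  by_cases hC : (𝔅.T Y).Wall s d ((𝔅.T Y).opp d)
  · -- isolated open edge: both sums vanish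
    exfalso
    have hz : ∀ e, (𝔅.T Y).SameLab s d e → 𝔅.wQ Y f e = 0 ∧ 𝔅.wV Y f e = 0 := by
      intro e he
      refine l9q_far_zero 𝔅 hR hμ hf hOk hF e ?_
      rcases (pl_ra_isolated hTag hC d').1 hlab with h1 | h1 <;> rcases (pl_ra_isolated hTag hC e).1 he with h2 | h2
      · left; rw [h2, ← h1]; exact hfar
      · right; rw [h2, (𝔅.T Y).tgt_opp, ← h1]; exact hfar
      · right; rw [h2, ← (𝔅.T Y).src_opp', ← h1]; exact hfar
      · left; rw [h2, ← h1]; exact hfar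
    have z1 : (𝔅.T Y).lsum s (𝔅.wQ Y f) d = 0 := by
      unfold PvMap.lsum
      refine finsum_eq_zero_of_forall_eq_zero fun e => ?_
      classical
      rw [finsum_eq_if]
      split_ifs with he
      · exact (hz e he).1
      · rfl
    have z2 : (𝔅.T Y).lsum s (𝔅.wV Y f) d = 0 := by
      unfold PvMap.lsum
      refine finsum_eq_zero_of_forall_eq_zero fun e => ?_
      classical
      rw [finsum_eq_if]
      split_ifs with he
      · exact (hz e he).2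
      · rfl
    rw [z1, z2, mul_zero, sub_zero, norm_zero] at hb
    linarith
  · obtain ⟨c, hc0, hrim⟩ := pl_rim hOk.sph hOk.simple hTag hC (Set.toFinite _)
    have hd0 : (𝔅.T Y).opp (c.e 0) = d := by rw [hc0, (𝔅.T Y).opp_opp]
    obtain ⟨i, hi⟩ := (hrim.2.2 d').1 (by rw [hd0]; exact hlab)
    obtain ⟨c', hrim', hc'⟩ := l9_rim_shift hrim (i + 1)
    have hsrc : (𝔅.T Y).src (c'.e 0) = (𝔅.T Y).src d' := by
      rw [hc', ← c.chain, hi, (𝔅.T Y).src_opp']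
    have hsame : (𝔅.T Y).SameLab s ((𝔅.T Y).opp (c'.e 0)) d := by
      rw [hc', ← hd0]
      exact pl_rim_lab' hrim (i + 1) 0
    refine ⟨𝔅.enc Y (x + 7 * R) c', ⟨c', hrim', ?_, rfl⟩, ?_⟩
    · rw [hsrc]
      unfold PvBulk.posF
      rcases hl : 𝔅.lab Y ((𝔅.T Y).src d') with p | q
      · have := hfar p hl
        rw [mem_ball_iff_norm, not_lt] at this
        exact this
      · show 4 * R ≤ ‖x + 7 * (R : ℂ) - x‖
        have e : x + 7 * (R : ℂ) - x = ((7 * R : ℝ) : ℂ) := by push_cast; ring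
        rw [e, Complex.norm_real, Real.norm_eq_abs, abs_of_pos (by positivity)]
        linarith
    · rw [l9_enc_fldQ, l9_enc_fldV, ← l9_lsum_rim hrim', ← l9_lsum_rim hrim', l9_lsum_congr _ hsame, l9_lsum_congr _ hsame]
      exact hb

/-- **the bad event of `PvTransport` is carried by a reaching rim** (isolated open edges are invisible on fine mesh) -/
theorem l9_bad_sub {a x : ℂ} {R μ τ : ℝ} {f : ℂ → ℂ} (hR : 0 < R) (hμ : μ ≤ R / 4) (hτ : 0 ≤ τ) (hf : ∀ w, R ≤ ‖w - x‖ → f w = 0)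
    {p : PVSample × (X → Bool)} (hp : p ∈ 𝔅.Bad a x R f τ) (hfin : Finite (𝔅.D (cfSites (pvConf p.1))))
    (hF : L9Fine (cfSites (pvConf p.1)) (Metric.closedBall x (6 * R)) μ) :
    ∃ P ∈ 𝔅.rims x R p, τ < ‖P.fld P.xQ f - a * P.fld P.xV f‖ := by
  obtain ⟨hAdm, hOk, d, hTag, hEsc, hb⟩ := hp
  obtain ⟨P, hP, hP2⟩ := l9q_bad_core 𝔅 hR hμ hτ hf hOk hfin hF hTag hEsc hb
  exact ⟨P, ⟨hAdm, hOk, hP⟩, hP2⟩

end enc

/-- the empty-disc argument: a point `u` of the closed circumdisc close to the netted region forces a small radius -/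
theorem l9q_rad_le {η : Conf PvPt} {x q a u : ℂ} {R ρ : ℝ} (hρ : 0 < ρ) (hρR : ρ ≤ R) (h : PvNet ρ (Metric.closedBall x (7 * R)) η)
    (hq : q ∈ vorCell (cfSites η) a) (hu : ‖u - q‖ ≤ ‖q - a‖) (hux : ‖u - x‖ ≤ 6 * R) : ‖q - a‖ ≤ ρ := by
  by_contra hcon
  have hcon : ρ < ‖q - a‖ := not_le.1 hcon
  obtain ⟨r, hr⟩ : ∃ r, r = ‖q - a‖ := ⟨_, rfl⟩
  rw [← hr] at hu hcon
  -- the point `z`
  have key : ∃ z : ℂ, ‖z - u‖ ≤ ρ ∧ ‖z - q‖ ≤ r - ρ := by
    by_cases hd : ‖u - q‖ ≤ r - ρ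
    · exact ⟨u, by simp [hρ.le], hd⟩
    · have hd : r - ρ < ‖u - q‖ := not_le.1 hd
      have hd0 : 0 < ‖u - q‖ := by linarith
      refine ⟨q + (((r - ρ) / ‖u - q‖ : ℝ) : ℂ) * (u - q), ?_, ?_⟩
      · have e : q + (((r - ρ) / ‖u - q‖ : ℝ) : ℂ) * (u - q) - u = (((r - ρ) / ‖u - q‖ - 1 : ℝ) : ℂ) * (u - q) := by
          push_cast; ring
        rw [e, norm_mul, Complex.norm_real, Real.norm_eq_abs]
        have h1 : (r - ρ) / ‖u - q‖ - 1 ≤ 0 := by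
          rw [sub_nonpos, div_le_one hd0]; exact hd.le
        rw [abs_of_nonpos h1]
        have e2 : -((r - ρ) / ‖u - q‖ - 1) * ‖u - q‖ = ‖u - q‖ - (r - ρ) := by
          field_simp; ring
        rw [e2]; linarith
      · have e : q + (((r - ρ) / ‖u - q‖ : ℝ) : ℂ) * (u - q) - q = (((r - ρ) / ‖u - q‖ : ℝ) : ℂ) * (u - q) := by ring
        rw [e, norm_mul, Complex.norm_real, Real.norm_eq_abs, abs_of_nonneg (div_nonneg (by linarith) hd0.le)]
        have e2 : (r - ρ) / ‖u - q‖ * ‖u - q‖ = r - ρ := by field_simp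
        rw [e2]
  obtain ⟨z, hz1, hz2⟩ := key
  have hzx : z ∈ Metric.closedBall x (7 * R) := by
    rw [mem_closedBall_iff_norm]
    have := norm_add_le (z - u) (u - x)
    have e : z - u + (u - x) = z - x := by ring
    rw [e] at this
    linarith
  obtain ⟨p, hp, hpz⟩ := h z hzx
  have h1 : ‖q - a‖ ≤ ‖q - p.1‖ := hq p.1 ⟨p, hp, rfl⟩
  have h2 := norm_add_le (q - z) (z - p.1)
  have e : q - z + (z - p.1) = q - p.1 := by ring
  rw [e, norm_sub_rev q z, norm_sub_rev z p.1] at h2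
  linarith

/-- fine mesh from a net: empty circumdiscs -/
theorem l9_fine_of_net {η : Conf PvPt} {x : ℂ} {R ρ : ℝ} (hρ : 0 < ρ) (hρR : ρ ≤ R) (h : PvNet ρ (Metric.closedBall x (7 * R)) η) :
    L9Fine (cfSites η) (Metric.closedBall x (6 * R)) (2 * ρ) := by
  intro a b c hT hK
  obtain ⟨ha, hb, hc, _, q, ⟨hqa, hqb⟩, hqc⟩ := hT
  have eab : ‖q - a‖ = ‖q - b‖ := le_antisymm (hqa b hb) (hqb a ha)
  have eac : ‖q - a‖ = ‖q - c‖ := le_antisymm (hqa c hc) (hqc a ha)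
  have hr : ‖q - a‖ ≤ ρ := by
    rcases hK with hk | hk | hk | hk
    · exact l9q_rad_le hρ hρR h hqa (by rw [norm_sub_rev]) (mem_closedBall_iff_norm.1 hk)
    · exact l9q_rad_le hρ hρR h hqa (by rw [norm_sub_rev, eab]) (mem_closedBall_iff_norm.1 hk)
    · exact l9q_rad_le hρ hρR h hqa (by rw [norm_sub_rev, eac]) (mem_closedBall_iff_norm.1 hk)
    · refine l9q_rad_le hρ hρR h hqa ?_ (mem_closedBall_iff_norm.1 hk)
      have e : (a + b + c) / 3 - q = ((1 / 3 : ℝ) : ℂ) * ((a - q) + (b - q) + (c - q)) := by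
        push_cast; ring
      rw [e, norm_mul, Complex.norm_real, Real.norm_eq_abs, abs_of_nonneg (by norm_num)]
      have h1 := norm_add_le ((a - q) + (b - q)) (c - q)
      have h2 := norm_add_le (a - q) (b - q)
      rw [norm_sub_rev a q, norm_sub_rev b q] at h2
      rw [norm_sub_rev c q] at h1
      linarith
  have tri : ∀ u v : ℂ, ‖v - u‖ ≤ ‖q - v‖ + ‖q - u‖ := by
    intro u v
    have := norm_add_le (v - q) (q - u)
    have e : v - q + (q - u) = v - u := by ring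
    rw [e, norm_sub_rev v q] at this
    exact this
  refine ⟨?_, ?_, ?_⟩
  · have := tri a b; linarith
  · have := tri a c; linarith
  · have := tri b c; linarith

/-- **MESH**: fine mesh has (inner) probability `→ 1` -/
theorem l9_fine_prob (εs : ℕ → ℝ) (h0 : ∀ n, 0 < εs n) (hε : Tendsto εs atTop (𝓝 0)) (x : ℂ) {R μ : ℝ} (hR : 0 < R) (hμ : 0 < μ) :
    Tendsto (fun n => (pvLaw (εs n) {o | ¬ L9Fine (cfSites (pvConf o)) (Metric.closedBall x (6 * R)) μ}).toReal) atTop (𝓝 0) := by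
  obtain ⟨ρ, hρdef⟩ : ∃ ρ, ρ = min (μ / 2) R := ⟨_, rfl⟩
  have hρ : 0 < ρ := by rw [hρdef]; exact lt_min (half_pos hμ) hR
  have hρR : ρ ≤ R := by rw [hρdef]; exact min_le_right _ _
  have hρμ : 2 * ρ ≤ μ := by
    have : ρ ≤ μ / 2 := by rw [hρdef]; exact min_le_left _ _
    linarith
  obtain ⟨L, hL, _, hnet⟩ := pvm_net_bdd (K := Metric.closedBall x (7 * R)) Metric.isBounded_closedBall hρ univ
  have hlim := pvm_good_tendsto (μ := pvP) hρ hL (fun ε _ => pv_isPpp ε) (c := univ) ⟨true, mem_univ _⟩ 0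
  have hεs : Tendsto εs atTop (𝓝[>] 0) := tendsto_nhdsWithin_iff.2 ⟨hε, Eventually.of_forall h0⟩
  have hlim2 := hlim.comp hεs
  have hsub : ∀ n, pvLaw (εs n) {o | ¬ L9Fine (cfSites (pvConf o)) (Metric.closedBall x (6 * R)) μ} ≤ pvP (εs n) (pvmGood univ ρ 0 L)ᶜ := by
    intro n
    unfold pvP
    rw [Measure.map_apply measurable_pvConf (pvm_good_meas _ _ _ _).compl]
    refine measure_mono fun o ho hgood => ho ?_
    have h1 : PvNet ρ (Metric.closedBall x (7 * R)) (pvConf o) := pvm_net_of_netC (hnet _ hgood)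
    have h2 := l9_fine_of_net hρ hρR h1
    intro a b c hT hK
    obtain ⟨u1, u2, u3⟩ := h2 a b c hT hK
    exact ⟨u1.trans hρμ, u2.trans hρμ, u3.trans hρμ⟩
  have hlim3 : Tendsto (fun n => pvLaw (εs n) {o | ¬ L9Fine (cfSites (pvConf o)) (Metric.closedBall x (6 * R)) μ}) atTop (𝓝 0) :=
    tendsto_of_tendsto_of_tendsto_of_le_of_le tendsto_const_nhds hlim2 (fun _ => zero_le) hsub
  have := (ENNReal.tendsto_toReal ENNReal.zero_ne_top).comp hlim3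
  rw [ENNReal.toReal_zero] at this
  exact this

/-- a smooth test function with support in the ball is a `PvbTest` -/
theorem l9_test {x : ℂ} {R : ℝ} {f : ℂ → ℂ} (hf : ContDiff ℝ ∞ f) (hs : tsupport f ⊆ Metric.ball x R) : ∃ Cf : ℝ, PvbTest x R Cf f := by
  have hc : HasCompactSupport f :=
    (Metric.isCompact_of_isClosed_isBounded (isClosed_tsupport f) (Metric.isBounded_ball.subset hs))
  obtain ⟨C, hC⟩ := ContDiff.lipschitzWith_of_hasCompactSupport hc hf (by simp)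
  refine ⟨C, ?_, ?_, C.2⟩
  · intro w hw
    by_contra hne
    have : w ∈ Metric.ball x R := hs (subset_tsupport f hne)
    rw [mem_ball_iff_norm] at this
    linarith
  · intro w w'
    have := hC.dist_le_mul w w'
    rwa [dist_eq_norm, dist_eq_norm] at this

/-! ## 3. the typed exits of the upstream boxes -/

section exits

variable {Ω : Type}

/-- **E1** (S1P + MESH): the Bessel majorants -/
structure L9Bes (Pr : ℕ → PvUp Ω) (rims : Ω → Set PvbRim) (x : ℂ) (R : ℝ) where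
  W : Bool → ℕ → (ℂ → ℂ) → Ω → ℝ
  CB : ℝ
  W_nn : ∀ X n g o, 0 ≤ W X n g o
  W_bes : ∀ (X : Bool) (ι : Type) (S : Finset ι) (gs : ι → ℂ → ℂ) (b : ℝ), (∀ i ∈ S, Measurable (gs i)) → (∀ w, ∑ i ∈ S, ‖gs i w‖ ^ 2 ≤ b ^ 2) →
    (∀ i ∈ S, ∀ w, 3 * R ≤ ‖w - x‖ → gs i w = 0) → ∀ᶠ n in atTop,
      (Pr n).E (fun o => ∑ i ∈ S, ENNReal.ofReal (W X n (gs i) o)) ≤ ENNReal.ofReal (CB * b ^ 2)
  /-- domination, off an event of (outer) probability `→ 0` -/
  dom : Tendsto (fun n => ((Pr n).P {o | ¬ ∀ P ∈ rims o, (∀ g, ‖P.fld P.xQ g‖ ^ 2 ≤ W false n g o) ∧ (∀ g, ‖P.fld P.xV g‖ ^ 2 ≤ W true n g o)}).toReal) atTop (𝓝 0)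

/-- **E2, E3** (ARM / S2): one arm and near return × one arm, stated for the reaching rims -/
structure L9Arm (Pr : ℕ → PvUp Ω) (rims : Ω → Set PvbRim) (x : ℂ) (R c : ℝ) where
  C1 : ℝ
  arm1 : ∀ (y : ℂ) (s : ℝ), ‖y - x‖ ≤ 2 * R → 0 < s → ∀ᶠ n in atTop, ((Pr n).P {o | ∃ P ∈ rims o, PvbVisits P y s}).toReal ≤ C1 * (s / R) ^ c
  /-- GRID-COUNT form (suggestion of 146): the expected NUMBER of squares `q ∈ B` of the grid `t ℤ²` whose centre sees a near return at the radii `(s, S)`, `t ≤ s ≤ 2t`.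
  No fixed centre: no stationarity and no measurability needed upstream.      The pointwise form implies it: `pvb_arm2_of_pt` (`S6b/Main.lean`), constant `25 C1`. -/
  arm2 : ∀ (t s S : ℝ) (B : Finset (ℤ × ℤ)), 0 < t → t ≤ s → s ≤ 2 * t → s ≤ S → S ≤ R → (∀ q ∈ B, ‖pvbSqCtr t q - x‖ ≤ 2 * R) → ∀ᶠ n in atTop,
    (Pr n).E (fun o => ∑ q ∈ B, {o | ∃ P ∈ rims o, PvbNearRet P (pvbSqCtr t q) s S}.indicator (fun _ => (1 : ENNReal)) o)
      ≤ ENNReal.ofReal (C1 * (R / t) ^ 2 * (s / S) ^ (2 + c) * (S / R) ^ c)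

/-- **E4, E5, global part** (THE WALL): menu, scales, scalars: common to all bulk families, balls and tests -/
structure L9Glob (τ : Type) (c : ℝ) where
  𝔐 : PvbMenu τ
  h : ℕ → ℝ
  r : ℕ → ℝ
  a : ℕ → ℂ
  ainf : ℂ
  h0 : ∀ m, 0 < h m
  h_lim : Tendsto h atTop (𝓝 0)
  r_lim : Tendsto r atTop (𝓝 0)
  Lh_r : ∀ᶠ m in atTop, 4 * 𝔐.L * h m ≤ r m
  lim2 : Tendsto (fun m => r m * h m ^ (-1 + c / 2)) atTop (𝓝 0)
  a_lim : Tendsto a atTop (𝓝 ainf)

/-- the point `(p.1 h, p.2 h)` of the grid `h ℤ²` -/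
def l9Pt (h : ℝ) (p : ℤ × ℤ) : ℂ := ⟨(p.1 : ℝ) * h, (p.2 : ℝ) * h⟩

/-- **E4, E5, local part** (THE WALL): pins, potentials, real arcs for one bulk family and one ball -/
structure L9Loc {τ : Type} {c : ℝ} (G : L9Glob τ c) (Pr : ℕ → PvUp Ω) (rims : Ω → Set PvbRim) (x : ℂ) (R : ℝ) where
  Err : ℕ → ℝ
  Err0 : ∀ m, 0 ≤ Err m
  lim1 : Tendsto (fun m => G.r m * Err m * G.h m ^ (-2 + c)) atTop (𝓝 0)
  pins : ℕ → ℕ → Ω → PvbRim → Set (PvbPin τ)
  β : ℕ → ℕ → Ω → PvbRim → PvbPin τ → ℂ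
  Ψ : ℕ → ℕ → Ω → ℂ → τ → ℂ
  /-- (P1)-(P3), (A1) of `LM_7.md`, in the ordered limit -/
  good : PvbOrd (fun m n => ((Pr n).P {o | ¬ ∀ P ∈ rims o,
    (∀ s ∈ pins m n o P, PvbIsPin G.𝔐 (G.h m) P s ∧ ∃ p : ℤ × ℤ, s.ctr = l9Pt (G.h m) p) ∧
    (∀ i i', i ≤ i' → i' ≤ P.len → (∀ k, i ≤ k → k ≤ i' → ‖P.v k - x‖ ≤ 2 * R) → G.r m ≤ ‖P.v i' - P.v i‖ → ∃ s ∈ pins m n o P, i ≤ s.idx ∧ s.idx ≤ i') ∧
    PvbRealArc G.𝔐 x R (G.h m) P (pins m n o P) (fun k => P.xQ k - G.a m * P.xV k) (β m n o P) (Ψ m n o) (Err m)}).toReal)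
  CΨ : ℝ
  Ψ_L2 : ∀ m (p : ℤ × ℤ) t, ‖l9Pt (G.h m) p - x‖ ≤ 2 * R → ∀ᶠ n in atTop,
    (Pr n).E (fun o => ENNReal.ofReal (‖Ψ m n o (l9Pt (G.h m) p) t‖ ^ 2)) ≤ ENNReal.ofReal (CΨ * G.h m ^ 2)

/-- the record `L9Loc` is monotone in the upper expectations -/
theorem l9_loc_of_le {τ : Type} {c : ℝ} {G : L9Glob τ c} {Pr Pr' : ℕ → PvUp Ω} (h : ∀ n F, (Pr n).E F ≤ (Pr' n).E F) {rims : Ω → Set PvbRim} {x : ℂ} {R : ℝ}
    (L : L9Loc G Pr' rims x R) : Nonempty (L9Loc G Pr rims x R) :=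
  ⟨{ Err := L.Err, Err0 := L.Err0, lim1 := L.lim1, pins := L.pins, β := L.β, Ψ := L.Ψ
     good := L.good.mono (Eventually.of_forall fun _ => Eventually.of_forall fun n => ENNReal.toReal_mono (PvUp.P_ne_top _ _) (h n _))
     CΨ := L.CΨ
     Ψ_L2 := fun m p t hp => (L.Ψ_L2 m p t hp).mono fun n hn => (h n _).trans hn }⟩

/-- mesh for the encoded rims -/
def L9Mesh (Pr : ℕ → PvUp Ω) (rims : Ω → Set PvbRim) (x : ℂ) (R : ℝ) : Prop :=
  ∀ μ : ℝ, 0 < μ → Tendsto (fun n => ((Pr n).P {o | ¬ ∀ P ∈ rims o, P.v P.len = P.v 0 ∧ 4 * R ≤ ‖P.v 0 - x‖ ∧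
      (∀ k < P.len, (‖P.v k - x‖ ≤ 5 * R ∨ ‖P.v (k + 1) - x‖ ≤ 5 * R) → ‖P.v (k + 1) - P.v k‖ ≤ μ) ∧
      (∀ k < P.len, (‖P.v k - x‖ ≤ 5 * R ∨ ‖P.z k - x‖ ≤ 5 * R) → ‖P.z k - P.v k‖ ≤ μ)}).toReal) atTop (𝓝 0)

theorem l9_eqns_cite2 : True := by
  have := @l9Pt.eq_1; have := @L9Mesh.eq_1
  trivial

/-! ## 4. the deterministic fields `Gr Box CG Kp` -/

/-- the candidate centres: the points of `h ℤ²` in `closedBall x (2R)` -/
noncomputable def l9Gr (h : ℝ) (x : ℂ) (R : ℝ) : Finset ℂ := by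
  classical
  exact Finset.filter (fun g => ‖g - x‖ ≤ 2 * R)
    ((Finset.Icc (⌊(x.re - 2 * R) / h⌋) (⌈(x.re + 2 * R) / h⌉) ×ˢ Finset.Icc (⌊(x.im - 2 * R) / h⌋) (⌈(x.im + 2 * R) / h⌉)).image (l9Pt h))

/-- the level-0 squares: those which meet `ball x (3R/2)` -/
noncomputable def l9Box (h : ℝ) (x : ℂ) (R : ℝ) : Finset (ℤ × ℤ) := by
  classical
  exact Finset.filter (fun p => ∃ w : ℂ, ‖w - x‖ < 3 * R / 2 ∧ pvbSqIdx h w = p)
    (Finset.Icc (⌊(x.re - 2 * R) / h⌋) (⌈(x.re + 2 * R) / h⌉) ×ˢ Finset.Icc (⌊(x.im - 2 * R) / h⌋) (⌈(x.im + 2 * R) / h⌉))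

theorem l9_mem_Gr {h : ℝ} (h0 : 0 < h) {x : ℂ} {R : ℝ} (p : ℤ × ℤ) (hp : ‖l9Pt h p - x‖ ≤ 2 * R) : l9Pt h p ∈ l9Gr h x R := by
  classical
  unfold l9Gr
  rw [Finset.mem_filter]
  refine ⟨Finset.mem_image.2 ⟨p, ?_, rfl⟩, hp⟩
  have h1 := (Complex.abs_re_le_norm (l9Pt h p - x)).trans hp
  have h2 := (Complex.abs_im_le_norm (l9Pt h p - x)).trans hp
  rw [Complex.sub_re] at h1
  rw [Complex.sub_im] at h2
  have e1 : (l9Pt h p).re = (p.1 : ℝ) * h := rfl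
  have e2 : (l9Pt h p).im = (p.2 : ℝ) * h := rfl
  rw [e1] at h1
  rw [e2] at h2
  rw [abs_le] at h1 h2
  rw [Finset.mem_product, Finset.mem_Icc, Finset.mem_Icc]
  refine ⟨⟨?_, ?_⟩, ?_, ?_⟩
  · rw [← Int.cast_le (R := ℝ)]
    refine (Int.floor_le _).trans ?_
    rw [div_le_iff₀ h0]; linarith
  · rw [← Int.cast_le (R := ℝ)]
    refine le_trans ?_ (Int.le_ceil _)
    rw [le_div_iff₀ h0]; linarith
  · rw [← Int.cast_le (R := ℝ)]
    refine (Int.floor_le _).trans ?_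
    rw [div_le_iff₀ h0]; linarith
  · rw [← Int.cast_le (R := ℝ)]
    refine le_trans ?_ (Int.le_ceil _)
    rw [le_div_iff₀ h0]; linarith

theorem l9_Gr_sub {h : ℝ} {x : ℂ} {R : ℝ} {g : ℂ} (hg : g ∈ l9Gr h x R) : ‖g - x‖ ≤ 2 * R ∧ ∃ p : ℤ × ℤ, g = l9Pt h p := by
  classical
  unfold l9Gr at hg
  rw [Finset.mem_filter] at hg
  obtain ⟨h1, h2⟩ := hg
  obtain ⟨p, _, rfl⟩ := Finset.mem_image.1 h1
  exact ⟨h2, p, rfl⟩

/-- helper: the number of integers between the two rounded ends -/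
theorem l9_Icc_card {h : ℝ} (h0 : 0 < h) {R : ℝ} (hR : 0 < R) (hh : h ≤ R) (u : ℝ) :
    ((Finset.Icc (⌊(u - 2 * R) / h⌋) (⌈(u + 2 * R) / h⌉)).card : ℝ) ≤ 7 * R / h := by
  have h1 : ((⌊(u - 2 * R) / h⌋ : ℤ) : ℝ) ≤ (u - 2 * R) / h := Int.floor_le _
  have h1' : (u - 2 * R) / h - 1 < ((⌊(u - 2 * R) / h⌋ : ℤ) : ℝ) := Int.sub_one_lt_floor _
  have h2 : (u + 2 * R) / h ≤ ((⌈(u + 2 * R) / h⌉ : ℤ) : ℝ) := Int.le_ceil _
  have h2' : ((⌈(u + 2 * R) / h⌉ : ℤ) : ℝ) < (u + 2 * R) / h + 1 := Int.ceil_lt_add_one _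
  have h3 : (u - 2 * R) / h ≤ (u + 2 * R) / h := by
    apply div_le_div_of_nonneg_right _ h0.le
    linarith
  have hle : ⌊(u - 2 * R) / h⌋ ≤ ⌈(u + 2 * R) / h⌉ := by
    have : ((⌊(u - 2 * R) / h⌋ : ℤ) : ℝ) ≤ ((⌈(u + 2 * R) / h⌉ : ℤ) : ℝ) := by linarith
    exact_mod_cast this
  rw [Int.card_Icc]
  have hc : (((⌈(u + 2 * R) / h⌉ + 1 - ⌊(u - 2 * R) / h⌋).toNat : ℕ) : ℝ) = ((⌈(u + 2 * R) / h⌉ : ℤ) : ℝ) + 1 - ((⌊(u - 2 * R) / h⌋ : ℤ) : ℝ) := by
    have := Int.toNat_of_nonneg (show 0 ≤ ⌈(u + 2 * R) / h⌉ + 1 - ⌊(u - 2 * R) / h⌋ by omega)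
    have h4 : ((((⌈(u + 2 * R) / h⌉ + 1 - ⌊(u - 2 * R) / h⌋).toNat : ℕ) : ℤ) : ℝ) = ((⌈(u + 2 * R) / h⌉ + 1 - ⌊(u - 2 * R) / h⌋ : ℤ) : ℝ) := by rw [this]
    push_cast at h4
    exact h4
  rw [hc]
  have h5 : (u + 2 * R) / h - (u - 2 * R) / h = 4 * R / h := by
    field_simp
    ring
  have h6 : 1 ≤ R / h := by
    rw [le_div_iff₀ h0]
    linarith
  have h7 : 7 * R / h = 4 * R / h + 3 * (R / h) := by ring
  linarith

/-- helper: the number of points of the index rectangle -/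
theorem l9_rect_card {h : ℝ} (h0 : 0 < h) {x : ℂ} {R : ℝ} (hR : 0 < R) (hh : h ≤ R) :
    (((Finset.Icc (⌊(x.re - 2 * R) / h⌋) (⌈(x.re + 2 * R) / h⌉) ×ˢ Finset.Icc (⌊(x.im - 2 * R) / h⌋) (⌈(x.im + 2 * R) / h⌉)).card : ℕ) : ℝ) ≤ 49 * R ^ 2 * h ^ (-2 : ℝ) := by
  rw [Finset.card_product]
  push_cast
  have h1 := l9_Icc_card h0 hR hh x.re
  have h2 := l9_Icc_card h0 hR hh x.im
  have h3 : (49 : ℝ) * R ^ 2 * h ^ (-2 : ℝ) = (7 * R / h) * (7 * R / h) := by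
    rw [Real.rpow_neg h0.le, Real.rpow_two]
    field_simp
    ring
  rw [h3]
  exact mul_le_mul h1 h2 (Nat.cast_nonneg _) (by positivity)

theorem l9_Gr_card {h : ℝ} (h0 : 0 < h) {x : ℂ} {R : ℝ} (hR : 0 < R) (hh : h ≤ R) : ((l9Gr h x R).card : ℝ) ≤ 49 * R ^ 2 * h ^ (-2 : ℝ) := by
  classical
  refine le_trans ?_ (l9_rect_card h0 (x := x) hR hh)
  unfold l9Gr
  exact_mod_cast (Finset.card_filter_le _ _).trans Finset.card_image_le

theorem l9_Box_card {h : ℝ} (h0 : 0 < h) {x : ℂ} {R : ℝ} (hR : 0 < R) (hh : h ≤ R) : ((l9Box h x R).card : ℝ) ≤ 49 * R ^ 2 * h ^ (-2 : ℝ) := by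
  classical
  refine le_trans ?_ (l9_rect_card h0 (x := x) hR hh)
  unfold l9Box
  exact_mod_cast Finset.card_filter_le _ _

theorem l9_Box_cov {h : ℝ} (h0 : 0 < h) {x : ℂ} {R : ℝ} (hR : 0 < R) (w : ℂ) (hw : ‖w - x‖ < 3 * R / 2) : pvbSqIdx h w ∈ l9Box h x R := by
  classical
  have hre : |w.re - x.re| ≤ ‖w - x‖ := by
    have := Complex.abs_re_le_norm (w - x)
    rwa [Complex.sub_re] at this
  have him : |w.im - x.im| ≤ ‖w - x‖ := by
    have := Complex.abs_im_le_norm (w - x)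
    rwa [Complex.sub_im] at this
  rw [abs_le] at hre him
  unfold l9Box
  rw [Finset.mem_filter, Finset.mem_product, Finset.mem_Icc, Finset.mem_Icc]
  refine ⟨⟨⟨?_, ?_⟩, ⟨?_, ?_⟩⟩, w, hw, rfl⟩
  · exact Int.floor_le_floor (div_le_div_of_nonneg_right (by linarith) h0.le)
  · exact (Int.floor_le_floor (div_le_div_of_nonneg_right (by linarith) h0.le)).trans (Int.floor_le_ceil _)
  · exact Int.floor_le_floor (div_le_div_of_nonneg_right (by linarith) h0.le)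
  · exact (Int.floor_le_floor (div_le_div_of_nonneg_right (by linarith) h0.le)).trans (Int.floor_le_ceil _)

theorem l9_Box_in {h : ℝ} (h0 : 0 < h) {x : ℂ} {R : ℝ} (hh : 4 * h ≤ R) (w : ℂ) (hw : pvbSqIdx h w ∈ l9Box h x R) : ‖w - x‖ ≤ 2 * R := by
  classical
  unfold l9Box at hw
  rw [Finset.mem_filter] at hw
  obtain ⟨-, w', hw', he⟩ := hw
  have e1 : ⌊w'.re / h⌋ = ⌊w.re / h⌋ := congrArg Prod.fst he
  have e2 : ⌊w'.im / h⌋ = ⌊w.im / h⌋ := congrArg Prod.snd he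
  have a1 := Int.abs_sub_lt_one_of_floor_eq_floor e1
  have a2 := Int.abs_sub_lt_one_of_floor_eq_floor e2
  have b1 : |w.re - w'.re| < h := by
    rw [← sub_div, abs_div, abs_of_pos h0, div_lt_one h0, abs_sub_comm] at a1
    exact a1
  have b2 : |w.im - w'.im| < h := by
    rw [← sub_div, abs_div, abs_of_pos h0, div_lt_one h0, abs_sub_comm] at a2
    exact a2
  have c1 : ‖w - w'‖ ≤ |w.re - w'.re| + |w.im - w'.im| := by
    have := Complex.norm_le_abs_re_add_abs_im (w - w')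
    rwa [Complex.sub_re, Complex.sub_im] at this
  have c2 : ‖w - x‖ ≤ ‖w - w'‖ + ‖w' - x‖ := by
    have := norm_add_le (w - w') (w' - x)
    rwa [sub_add_sub_cancel] at this
  linarith

/-- the number of patterns of cut-off balls seen in one square of side `h` is bounded independently of `h` -/
theorem l9_pat_card {τ : Type} [Fintype τ] (𝔐 : PvbMenu τ) : ∃ Kp : ℕ, ∀ (h : ℝ), 0 < h → ∀ (x : ℂ) (R : ℝ) (p : ℤ × ℤ) (S : Finset (Finset (ℂ × τ))),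
    (∀ q ∈ S, ∃ w, pvbSqIdx h w = p ∧ pvbCutPat 𝔐 h (l9Gr h x R) w = q) → S.card ≤ Kp := by
  classical
  obtain ⟨K, hK⟩ : ∃ K : ℤ, K = ⌈𝔐.L⌉ + 2 := ⟨_, rfl⟩
  refine ⟨2 ^ (((2 * K + 1).toNat * (2 * K + 1).toNat) * Fintype.card τ), fun h h0 x R p S hS => ?_⟩
  obtain ⟨C, hC⟩ : ∃ C : Finset (ℂ × τ), C = ((Finset.Icc (p.1 - K) (p.1 + K) ×ˢ Finset.Icc (p.2 - K) (p.2 + K)).image (l9Pt h)) ×ˢ (Finset.univ : Finset τ) := ⟨_, rfl⟩
  have hCcard : C.card ≤ ((2 * K + 1).toNat * (2 * K + 1).toNat) * Fintype.card τ := by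
    rw [hC, Finset.card_product, Finset.card_univ]
    refine Nat.mul_le_mul_right _ (Finset.card_image_le.trans ?_)
    rw [Finset.card_product, Int.card_Icc, Int.card_Icc]
    have e1 : p.1 + K + 1 - (p.1 - K) = 2 * K + 1 := by ring
    have e2 : p.2 + K + 1 - (p.2 - K) = 2 * K + 1 := by ring
    rw [e1, e2]
  have hsub : S ⊆ C.powerset := by
    intro q hq
    obtain ⟨w, hw, rfl⟩ := hS q hq
    rw [Finset.mem_powerset]
    rintro ⟨g, t⟩ hgt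
    unfold pvbCutPat at hgt
    rw [Finset.mem_filter, Finset.mem_product] at hgt
    obtain ⟨⟨hg, -⟩, hcut⟩ := hgt
    obtain ⟨-, p', rfl⟩ := l9_Gr_sub hg
    have hcut' : ‖w - l9Pt h p'‖ ≤ 𝔐.mc t * h := hcut
    have hmc : 𝔐.mc t ≤ 𝔐.L := by
      have a1 := 𝔐.mc_gt t
      have a2 := 𝔐.mc_lt t
      have a3 := 𝔐.a3_gt t
      have a4 := 𝔐.a3_le t
      linarith
    have hLK : 𝔐.L + 2 ≤ (K : ℝ) := by
      rw [hK]
      push_cast
      have := Int.le_ceil 𝔐.L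
      linarith
    have hb : ‖w - l9Pt h p'‖ ≤ 𝔐.L * h := hcut'.trans (mul_le_mul_of_nonneg_right hmc h0.le)
    have hre : |w.re - (p'.1 : ℝ) * h| ≤ 𝔐.L * h := by
      have := Complex.abs_re_le_norm (w - l9Pt h p')
      simp only [Complex.sub_re, l9Pt] at this
      exact this.trans hb
    have him : |w.im - (p'.2 : ℝ) * h| ≤ 𝔐.L * h := by
      have := Complex.abs_im_le_norm (w - l9Pt h p')
      simp only [Complex.sub_im, l9Pt] at this
      exact this.trans hb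
    have key : ∀ (u : ℝ) (a b : ℤ), ⌊u / h⌋ = a → |u - (b : ℝ) * h| ≤ 𝔐.L * h → a - K ≤ b ∧ b ≤ a + K := by
      intro u a b ha hu
      have f1 : (a : ℝ) ≤ u / h := by rw [← ha]; exact Int.floor_le _
      have f2 : u / h < (a : ℝ) + 1 := by rw [← ha]; exact Int.lt_floor_add_one _
      rw [le_div_iff₀ h0] at f1
      rw [div_lt_iff₀ h0] at f2
      obtain ⟨g1, g2⟩ := abs_le.1 hu
      have c1 : ((a : ℝ) - K) * h ≤ (b : ℝ) * h := by nlinarith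
      have c2 : (b : ℝ) * h ≤ ((a : ℝ) + K) * h := by nlinarith
      have d1 := le_of_mul_le_mul_right c1 h0
      have d2 := le_of_mul_le_mul_right c2 h0
      constructor
      · exact_mod_cast d1
      · exact_mod_cast d2
    have hw1 : ⌊w.re / h⌋ = p.1 := congrArg Prod.fst hw
    have hw2 : ⌊w.im / h⌋ = p.2 := congrArg Prod.snd hw
    obtain ⟨k1, k2⟩ := key _ _ _ hw1 hre
    obtain ⟨k3, k4⟩ := key _ _ _ hw2 him
    rw [hC, Finset.mem_product]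
    refine ⟨Finset.mem_image.2 ⟨p', ?_, rfl⟩, Finset.mem_univ _⟩
    rw [Finset.mem_product, Finset.mem_Icc, Finset.mem_Icc]
    exact ⟨⟨k1, k2⟩, ⟨k3, k4⟩⟩
  calc S.card ≤ C.powerset.card := Finset.card_le_card hsub
    _ = 2 ^ C.card := Finset.card_powerset C
    _ ≤ _ := Nat.pow_le_pow_right (by norm_num) hCcard

/-! ## 5. the instance -/

/-- union bound for three bad events -/
theorem l9_three (μP : PvUp Ω) {S A B C : Set Ω} (h : S ⊆ A ∪ B ∪ C) {η : ℝ}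
    (a : (μP.P A).toReal ≤ η / 3) (b : (μP.P B).toReal ≤ η / 3) (c : (μP.P C).toReal ≤ η / 3) : (μP.P S).toReal ≤ η := by
  have h1 := pvb_P_mono (μ := μP) h
  have h2 := pvb_P_union (μ := μP) (A ∪ B) C
  have h3 := pvb_P_union (μ := μP) A B
  linarith

/-- **LM.3: THE INSTANCE** (after a shift of the index `m`: the deterministic fields need `4 h ≤ R`) -/
theorem l9_inst {τ : Type} [Fintype τ] {c : ℝ} (c0 : 0 < c) (G : L9Glob τ c) (Pr : ℕ → PvUp Ω)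
    (rims : Ω → Set PvbRim) {x : ℂ} {R Cf : ℝ} {f : ℂ → ℂ} (hR : 0 < R) (hf : PvbTest x R Cf f)
    (B : L9Bes Pr rims x R) (A : L9Arm Pr rims x R c) (M : L9Mesh Pr rims x R) (L : L9Loc G Pr rims x R) :
    ∃ m0 : ℕ, Nonempty (PvbIn G.𝔐 x R Cf f Pr (fun _ => rims) (fun m => G.a (m + m0))) := by
  obtain ⟨m0, hm0⟩ : ∃ m0 : ℕ, ∀ m, m0 ≤ m → 4 * G.h m ≤ R := by
    have : ∀ᶠ m in atTop, G.h m < R / 4 := (tendsto_order.1 G.h_lim).2 _ (by positivity)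
    obtain ⟨m0, h⟩ := eventually_atTop.1 this
    exact ⟨m0, fun m hm => by have := h m hm; linarith⟩
  have h4 : ∀ m, 4 * G.h (m + m0) ≤ R := fun m => hm0 _ (Nat.le_add_left _ _)
  have hhR : ∀ m, G.h (m + m0) ≤ R := fun m => by have := h4 m; have := G.h0 (m + m0); linarith
  obtain ⟨Aa, hAa⟩ : ∃ Aa : ℝ, ∀ m, ‖G.a m‖ ≤ Aa := by
    obtain ⟨Aa, h⟩ := G.a_lim.norm.bddAbove_range
    exact ⟨Aa, fun m => h ⟨m, rfl⟩⟩
  obtain ⟨Kp, hKp⟩ := l9_pat_card G.𝔐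
  have hsh := tendsto_add_atTop_nat m0
  refine ⟨m0, ⟨{
    R0 := hR
    test := hf
    h := fun m => G.h (m + m0)
    r := fun m => G.r (m + m0)
    Err := fun m => L.Err (m + m0)
    c := c
    Aa := Aa
    h0 := fun m => G.h0 _
    Err0 := fun m => L.Err0 _
    c0 := c0
    a_le := fun m => hAa _
    par := ?_
    lim1 := L.lim1.comp hsh
    lim2 := G.lim2.comp hsh
    Gr := fun m => l9Gr (G.h (m + m0)) x R
    Box := fun m => l9Box (G.h (m + m0)) x R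
    CG := 49 * R ^ 2
    Kp := Kp
    Gr_card := fun m => l9_Gr_card (G.h0 _) hR (hhR m)
    Box_card := fun m => l9_Box_card (G.h0 _) hR (hhR m)
    Box_cov := fun m w hw => l9_Box_cov (G.h0 _) hR w hw
    Box_in := fun m w hw => l9_Box_in (G.h0 _) (h4 m) w hw
    pat_card := fun m p S hS => hKp _ (G.h0 _) x R p S hS
    pins := fun m n => L.pins (m + m0) n
    β := fun m n => L.β (m + m0) n
    Ψ := fun m n => L.Ψ (m + m0) n
    W := B.W
    good := ?_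
    CΨ := L.CΨ
    Ψ_L2 := ?_
    C1 := A.C1
    arm1 := A.arm1
    arm2 := A.arm2
    CB := B.CB
    W_nn := B.W_nn
    W_bes := B.W_bes }⟩⟩
  · have h1 : ∀ᶠ m in atTop, 4 * G.𝔐.L * G.h (m + m0) ≤ G.r (m + m0) := hsh.eventually G.Lh_r
    have h2 : ∀ᶠ m in atTop, G.r m < R / 100 := (tendsto_order.1 G.r_lim).2 _ (by positivity)
    filter_upwards [h1, hsh.eventually h2] with m a1 a2
    exact ⟨a1, by linarith⟩
  · intro μ hμ η hη
    have hL := hsh.eventually (L.good (η / 3) (by positivity))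
    filter_upwards [hL] with m hLm
    have hM : ∀ᶠ n in atTop, _ < η / 3 := (tendsto_order.1 (M (μ m) (hμ m))).2 _ (by positivity)
    have hB : ∀ᶠ n in atTop, _ < η / 3 := (tendsto_order.1 B.dom).2 _ (by positivity)
    filter_upwards [hLm, hM, hB] with n b1 b2 b3
    refine l9_three (Pr n) ?_ b1 b2.le b3.le
    intro o ho
    by_contra hcon
    simp only [mem_union, mem_ofPred_eq, not_or, not_not] at hcon
    obtain ⟨⟨g1, g2⟩, g3⟩ := hcon
    refine ho fun P hP => ?_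
    obtain ⟨p1, p2, p3⟩ := g1 P hP
    obtain ⟨q1, q2, q3, q4⟩ := g2 P hP
    obtain ⟨w1, w2⟩ := g3 P hP
    refine ⟨⟨q1, q2, q3, q4, fun s hs => (p1 s hs).1, p2⟩, fun s hs hsx => ?_, p3, w1, w2⟩
    obtain ⟨pp, hpp⟩ := (p1 s hs).2
    rw [hpp] at hsx ⊢
    exact l9_mem_Gr (G.h0 _) pp hsx
  · intro m g hg t
    obtain ⟨hgx, pp, rfl⟩ := l9_Gr_sub hg
    exact L.Ψ_L2 (m + m0) pp t hgx

/-- transport for the encoded rims -/
theorem l9_rims_transport {τ : Type} [Fintype τ] [Nonempty τ] {c : ℝ} (c0 : 0 < c) (G : L9Glob τ c) (Pr : ℕ → PvUp Ω)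
    (rims : Ω → Set PvbRim) {x : ℂ} {R Cf : ℝ} {f : ℂ → ℂ} (hR : 0 < R) (hf : PvbTest x R Cf f)
    (B : L9Bes Pr rims x R) (A : L9Arm Pr rims x R c) (M : L9Mesh Pr rims x R) (L : L9Loc G Pr rims x R) (ξ : ℝ) (hξ : 0 < ξ) :
    Tendsto (fun n => ((Pr n).P {o | ∃ P ∈ rims o, ξ < ‖P.fld P.xQ f - G.ainf * P.fld P.xV f‖}).toReal) atTop (𝓝 0) := by
  obtain ⟨m0, ⟨I⟩⟩ := l9_inst c0 G Pr rims hR hf B A M L
  exact pvb_transport I G.ainf (G.a_lim.comp (tendsto_add_atTop_nat m0)) ξ hξ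

end exits

/-! ## 6. the exits in the real vocabulary, and `PvTransport` -/

/-- **EXIT of S1P (244) + MESH (127)** -/
def L9ExitBes : Prop :=
  ∀ εs : ℕ → ℝ, (∀ n, 0 < εs n) → Tendsto εs atTop (𝓝 0) → ∀ (X : Type) [Fintype X] (𝔅 : PvBulk X) (x : ℂ) (R : ℝ), 0 < R →
    Nonempty (L9Bes (fun n => l9Up X (εs n)) (fun w => 𝔅.rims x R (l9Sm w)) x R)

/-- **EXIT of ARM / S2 (241 237 84)** -/
def L9ExitArm (c : ℝ) : Prop :=
  ∀ εs : ℕ → ℝ, (∀ n, 0 < εs n) → Tendsto εs atTop (𝓝 0) → ∀ (X : Type) [Fintype X] (𝔅 : PvBulk X) (x : ℂ) (R : ℝ), 0 < R →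
    Nonempty (L9Arm (fun n => l9Up X (εs n)) (fun w => 𝔅.rims x R (l9Sm w)) x R c)

/-- **EXIT of THE WALL (208 295 273 125)**: the ONLY place where a subsequence of `ε` is extracted -/
def L9ExitTR (c : ℝ) : Prop :=
  ∀ εs : ℕ → ℝ, (∀ n, 0 < εs n) → Tendsto εs atTop (𝓝 0) → ∃ φ : ℕ → ℕ, StrictMono φ ∧ ∃ (τ : Type) (_ : Fintype τ) (_ : Nonempty τ) (G : L9Glob τ c),
    ∀ (X : Type) [Fintype X] (𝔅 : PvBulk X) (x : ℂ) (R : ℝ), 0 < R → Nonempty (L9Loc G (fun n => l9Up X (εs (φ n))) (fun w => 𝔅.rims x R (l9Sm w)) x R)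

theorem l9_eqns_cite3 : True := by
  have := @l9Gr.eq_1; have := @l9Box.eq_1; have := @L9ExitBes.eq_1; have := @L9ExitArm.eq_1; have := @L9ExitTR.eq_1
  trivial

/-- **INPUT for the events of the sample alone** (mesh, arms, pins: everything which is contained in an event free of the bulk family) -/
theorem l9_up_le (X : Type) (ε : ℝ) (A : Set PVSample) : (l9Up X ε).P {w | (l9Sm w).1 ∈ A} ≤ pvLaw ε A := by
  have hm := measurableSet_toMeasurable (pvLaw ε) A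
  unfold l9Up
  rw [pvup_iter_P]
  refine (pvup_int_le (pvGeo ε) (pvqu_Q_meas hm) fun g => ?_).trans ?_
  · have e : {k : PvColT × (X → Bool) | ((g, k) : L9Om X) ∈ {w : L9Om X | (l9Sm w).1 ∈ A}} ⊆ {c | pvMerge (g, c) ∈ toMeasurable (pvLaw ε) A} ×ˢ univ := by
      intro k hk
      exact ⟨subset_toMeasurable (pvLaw ε) A hk, mem_univ _⟩
    refine (measure_mono e).trans ?_
    rw [Measure.prod_prod, measure_univ, mul_one]
    exact le_rfl
  · rw [pvqu_Q_lintegral ε hm, measure_toMeasurable]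

/-- the two-level upper expectation is dominated by the upper integral of the JOINT law: every bound under the joint law (outer measure, jointly measurable majorants) transfers -/
theorem l9_up_le_joint (X : Type) (ε : ℝ) (F : L9Om X → ENNReal) : (l9Up X ε).E F ≤ (PvUp.ofMeasure ((pvGeo ε).prod (pvCol.prod (colLaw X)))).E F :=
  le_iInf fun φ => ((l9Up X ε).mono φ.2.2).trans (pvup_iter_E_le _ _ φ.2.1)

/-- mesh for the encoded rims of a bulk family -/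
theorem l9_mesh (εs : ℕ → ℝ) (h0 : ∀ n, 0 < εs n) (hε : Tendsto εs atTop (𝓝 0)) {X : Type} [Fintype X] (𝔅 : PvBulk X) (x : ℂ) {R : ℝ} (hR : 0 < R) :
    L9Mesh (fun n => l9Up X (εs n)) (fun w => 𝔅.rims x R (l9Sm w)) x R := by
  intro μ hμ
  have hμ' : 0 < min μ R := lt_min hμ hR
  have key := l9_fine_prob εs h0 hε x hR hμ'
  refine squeeze_zero (fun n => ENNReal.toReal_nonneg) (fun n => ?_) key
  set E : Set PVSample := {o | ¬ L9Fine (cfSites (pvConf o)) (Metric.closedBall x (6 * R)) (min μ R)} with hE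
  have hsub : {o : L9Om X | ¬ ∀ P ∈ 𝔅.rims x R (l9Sm o), P.v P.len = P.v 0 ∧ 4 * R ≤ ‖P.v 0 - x‖ ∧
      (∀ k < P.len, (‖P.v k - x‖ ≤ 5 * R ∨ ‖P.v (k + 1) - x‖ ≤ 5 * R) → ‖P.v (k + 1) - P.v k‖ ≤ μ) ∧
      (∀ k < P.len, (‖P.v k - x‖ ≤ 5 * R ∨ ‖P.z k - x‖ ≤ 5 * R) → ‖P.z k - P.v k‖ ≤ μ)} ⊆ {w | (l9Sm w).1 ∈ E} := by
    intro o ho
    intro hF
    apply ho
    intro P hP
    obtain ⟨_, hOk, hPr⟩ := hP
    obtain ⟨a1, a2, a3, a4⟩ := l9_enc_mesh 𝔅 hR (min_le_right μ R) hOk hF hPr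
    exact ⟨a1, a2, fun k hk hor => (a3 k hk hor).trans (min_le_left _ _), fun k hk hor => (a4 k hk hor).trans (min_le_left _ _)⟩
  exact ENNReal.toReal_mono (measure_ne_top _ _) (((l9Up X (εs n)).P_mono hsub).trans (l9_up_le X (εs n) E))

/-- **LM.T, joint form**: the two-level upper probability of the bad event tends to `0` -/
theorem l9_joint {c : ℝ} (c0 : 0 < c) (hB : L9ExitBes) (hA : L9ExitArm c) (hT : L9ExitTR c) (εs : ℕ → ℝ) (h0 : ∀ n, 0 < εs n) (hε : Tendsto εs atTop (𝓝 0)) :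
    ∃ φ : ℕ → ℕ, StrictMono φ ∧ ∃ a : ℂ, ∀ (X : Type) [Fintype X] (𝔅 : PvBulk X) (x : ℂ) (R : ℝ) (f : ℂ → ℂ), 0 < R → ContDiff ℝ ∞ f →
      tsupport f ⊆ Metric.ball x R → ∀ τ : ℝ, 0 < τ → Tendsto (fun n => ((l9Up X (εs (φ n))).P {w | l9Sm w ∈ 𝔅.Bad a x R f τ}).toReal) atTop (𝓝 0) := by
  obtain ⟨φ, hφ, τT, iF, iN, G, hL⟩ := hT εs h0 hε
  have h0' : ∀ n, 0 < εs (φ n) := fun n => h0 _
  have hε' : Tendsto (fun n => εs (φ n)) atTop (𝓝 0) := hε.comp hφ.tendsto_atTop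
  refine ⟨φ, hφ, G.ainf, fun X _ 𝔅 x R f hR hf hs τ hτ => ?_⟩
  obtain ⟨Cf, hCf⟩ := l9_test hf hs
  obtain ⟨B⟩ := hB (fun n => εs (φ n)) h0' hε' X 𝔅 x R hR
  obtain ⟨A⟩ := hA (fun n => εs (φ n)) h0' hε' X 𝔅 x R hR
  obtain ⟨L⟩ := hL X 𝔅 x R hR
  have M := l9_mesh (fun n => εs (φ n)) h0' hε' 𝔅 x hR
  have t1 := l9_rims_transport c0 G (fun n => l9Up X (εs (φ n))) (fun w => 𝔅.rims x R (l9Sm w)) hR hCf B A M L τ hτ
  have t2 := l9_fine_prob (fun n => εs (φ n)) h0' hε' x hR (μ := R / 4) (by positivity)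
  have t3 := t1.add t2
  rw [add_zero] at t3
  refine squeeze_zero (fun n => ENNReal.toReal_nonneg) (fun n => ?_) t3
  have hsub : {w : L9Om X | l9Sm w ∈ 𝔅.Bad G.ainf x R f τ} ⊆ {o | ∃ P ∈ 𝔅.rims x R (l9Sm o), τ < ‖P.fld P.xQ f - G.ainf * P.fld P.xV f‖} ∪
      {w | (l9Sm w).1 ∈ {o : PVSample | ¬ L9Fine (cfSites (pvConf o)) (Metric.closedBall x (6 * R)) (R / 4)}} := by
    intro p hp
    by_cases hF : L9Fine (cfSites (pvConf (l9Sm p).1)) (Metric.closedBall x (6 * R)) (R / 4)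
    · exact Or.inl (l9_bad_sub 𝔅 hR le_rfl hτ.le hCf.supp hp hp.1.2 hF)
    · exact Or.inr hF
  have h1 := pvb_P_mono (μ := l9Up X (εs (φ n))) hsub
  have h2 := pvb_P_union (μ := l9Up X (εs (φ n))) {o | ∃ P ∈ 𝔅.rims x R (l9Sm o), τ < ‖P.fld P.xQ f - G.ainf * P.fld P.xV f‖}
      {w | (l9Sm w).1 ∈ {o : PVSample | ¬ L9Fine (cfSites (pvConf o)) (Metric.closedBall x (6 * R)) (R / 4)}}
  have h3 := ENNReal.toReal_mono (measure_ne_top _ _) (l9_up_le X (εs (φ n)) {o : PVSample | ¬ L9Fine (cfSites (pvConf o)) (Metric.closedBall x (6 * R)) (R / 4)})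
  linarith

/-- from the two-level upper probability to the quenched form of `PvTransport` (`pvup_iter_out`) -/
theorem l9_quench {X : Type} [Fintype X] (εs : ℕ → ℝ) (A : ℕ → Set (PVSample × (X → Bool)))
    (h : Tendsto (fun n => ((l9Up X (εs n)).P {w | l9Sm w ∈ A n}).toReal) atTop (𝓝 0)) :
    ∃ b : ℕ → PvGeoT → ENNReal, (∀ n, Measurable (b n)) ∧ (∀ n g, (pvCol.prod (colLaw X)) {p | (pvMerge (g, p.1), p.2) ∈ A n} ≤ b n g) ∧
      Tendsto (fun n => ∫⁻ g, b n g ∂(pvGeo (εs n))) atTop (𝓝 0) := by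
  have h' : Tendsto (fun n => (l9Up X (εs n)).P {w | l9Sm w ∈ A n}) atTop (𝓝 0) := by
    rw [← ENNReal.tendsto_toReal_iff (fun n => PvUp.P_ne_top _ _) ENNReal.zero_ne_top]
    simpa using h
  have key : ∀ n, ∃ b : PvGeoT → ENNReal, Measurable b ∧ (∀ g, (pvCol.prod (colLaw X)) {k | ((g, k) : L9Om X) ∈ {w : L9Om X | l9Sm w ∈ A n}} ≤ b g) ∧
      ∫⁻ g, b g ∂(pvGeo (εs n)) < (l9Up X (εs n)).P {w | l9Sm w ∈ A n} + (n + 1 : ENNReal)⁻¹ := fun n => by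
    refine pvup_iter_out (pvGeo (εs n)) (pvCol.prod (colLaw X)) ?_
    exact ENNReal.lt_add_right (PvUp.P_ne_top _ _) (by simp)
  choose b hb1 hb2 hb3 using key
  refine ⟨b, hb1, fun n g => hb2 n g, ?_⟩
  have t1 : Tendsto (fun n : ℕ => (l9Up X (εs n)).P {w | l9Sm w ∈ A n} + ((n : ENNReal) + 1)⁻¹) atTop (𝓝 (0 + 0)) := by
    refine h'.add ?_
    have := ENNReal.tendsto_inv_nat_nhds_zero
    have t2 := (tendsto_add_atTop_iff_nat 1).2 this
    simpa using t2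
  rw [add_zero] at t1
  exact tendsto_of_tendsto_of_tendsto_of_le_of_le tendsto_const_nhds t1 (fun _ => zero_le) fun n => (hb3 n).le

/-- **EXIT OF CR.B = Theorem 3.1 (bulk transport)** -/
theorem l9_transport {c : ℝ} (c0 : 0 < c) (hB : L9ExitBes) (hA : L9ExitArm c) (hT : L9ExitTR c) : PvTransport := by
  intro εs h0 hε
  obtain ⟨φ, hφ, a, H⟩ := l9_joint c0 hB hA hT εs h0 hε
  refine ⟨φ, hφ, a, fun X _ 𝔅 x R f hR hf hs τ hτ => ?_⟩
  exact l9_quench (fun n => εs (φ n)) (fun _ => 𝔅.Bad a x R f τ) (H X 𝔅 x R f hR hf hs τ hτ)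

end Claimed.Agent.R289
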