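import Claimed.Agent.R289.Cr.Inst
import Claimed.Agent.R289.Defs.Up

/-!
# Row 289 (S0537), box CR, file Cr/All : THE FAMILY-FREE (`A`) FORM OF THE EXITS OF ARM AND OF THE WALL      (owner helper115, second architect of TRANSPORT; prefix `l9a_`, `l9All`, `L9..A`)

WHY.  The exits `L9ExitArm`, `L9ExitTR` of `Cr/Inst.lean` quantify over ALL bulk families `𝔅 : PvBulk X` (arbitrary, non measurable functions of the site set) and live on the sample space of `𝔅`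
(geometry × colours × coins of the extra vertices).      But what ARM and the WALL prove never looks at `𝔅`: it is a statement on the plain sample `ω : PVSample` under `pvLaw ε`,
valid SIMULTANEOUSLY for all rims of all completions which agree with the Delaunay triangulation of `ω` on `closedBall x (6R)`.

* `l9All x R ω`          ALL encoded rims of ALL bulk families with ALL values of the extra coins at the sample `ω`:   LOCALITY FOR FREE, `𝔅.rims x R (ω, ξ) ⊆ l9All x R ω` is `l9a_sub`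
* `L9ArmA εs x R c`      E2 + E3 on `(PVSample, pvLaw (εs n))`, OUTER measure, rims `l9All`
* `L9LocA G εs x R`      E4 + E5 on `(PVSample, pvLaw (εs n))`, OUTER measure, UPPER integral `pvUpInt` for `Ψ_L2` (for a measurable `Ψ` it is the integral: `pvup_int_of_meas`)
* `L9ExitArmA c`, `L9ExitTRA c`      the two exits: NO `X`, NO `𝔅`, NO coins
TRANSFER (proved here, no measurability of anything):
* `l9a_map`              the law of the sample under `pvGeo ε ⊗ (pvCol ⊗ colLaw X)` is `pvLaw ε`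
* `l9a_P_le`             `(PvUp.iter ..).P {o | sample o ∈ E} ≤ pvLaw ε E` for EVERY set `E`
* `l9a_E_le`             `(PvUp.iter ..).E (F ∘ sample) ≤ pvUpInt (pvLaw ε) F` for EVERY `F`
* `l9a_ev_le`, `l9a_bad_le`      the two shapes of events of the records (`∃ P ∈ rims, ..`, `¬ ∀ P ∈ rims, ..`)
* `l9a_mem`, `l9a_forall`      unfolding: a statement on all `P ∈ l9All x R ω` is a statement on all rims `c` of all `𝔅.T Y` with `Adm`, `Ok`
-/

set_option autoImplicit false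

namespace Claimed.Agent.R289

open MeasureTheory ProbabilityTheory Set Filter Topology Claims.C0465

/-- ALL encoded rims of ALL bulk families, with ALL values of the coins of the extra vertices, at the sample `ω` -/
def l9All (x : ℂ) (R : ℝ) (ω : PVSample) : Set PvbRim :=
  {P | ∃ (X : Type) (_ : Fintype X) (𝔅 : PvBulk X) (ξ : X → Bool), P ∈ 𝔅.rims x R (ω, ξ)}

/-- **E2, E3 in family-free form** -/
structure L9ArmA (εs : ℕ → ℝ) (x : ℂ) (R c : ℝ) where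
  C1 : ℝ
  arm1 : ∀ (y : ℂ) (s : ℝ), ‖y - x‖ ≤ 2 * R → 0 < s → ∀ᶠ n in atTop, (pvLaw (εs n) {o | ∃ P ∈ l9All x R o, PvbVisits P y s}).toReal ≤ C1 * (s / R) ^ c
  arm2 : ∀ (y : ℂ) (s S : ℝ), ‖y - x‖ ≤ 2 * R → 0 < s → s ≤ S → S ≤ R → ∀ᶠ n in atTop,
    (pvLaw (εs n) {o | ∃ P ∈ l9All x R o, PvbNearRet P y s S}).toReal ≤ C1 * (s / S) ^ (2 + c) * (S / R) ^ c

/-- **E4, E5, local part, in family-free form**: pins, potentials, real arcs for one ball -/
structure L9LocA {τ : Type} {c : ℝ} (G : L9Glob τ c) (εs : ℕ → ℝ) (x : ℂ) (R : ℝ) where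
  Err : ℕ → ℝ
  Err0 : ∀ m, 0 ≤ Err m
  lim1 : Tendsto (fun m => G.r m * Err m * G.h m ^ (-2 + c)) atTop (𝓝 0)
  pins : ℕ → ℕ → PVSample → PvbRim → Set (PvbPin τ)
  β : ℕ → ℕ → PVSample → PvbRim → PvbPin τ → ℂ
  Ψ : ℕ → ℕ → PVSample → ℂ → τ → ℂ
  /-- (P1)-(P3), (A1) of `LM_7.md`, in the ordered limit, for ALL rims of ALL completions -/
  good : PvbOrd (fun m n => (pvLaw (εs n) {o | ¬ ∀ P ∈ l9All x R o,
    (∀ s ∈ pins m n o P, PvbIsPin G.𝔐 (G.h m) P s ∧ ∃ p : ℤ × ℤ, s.ctr = l9Pt (G.h m) p) ∧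
    (∀ i i', i ≤ i' → i' ≤ P.len → (∀ k, i ≤ k → k ≤ i' → ‖P.v k - x‖ ≤ 2 * R) → G.r m ≤ ‖P.v i' - P.v i‖ → ∃ s ∈ pins m n o P, i ≤ s.idx ∧ s.idx ≤ i') ∧
    PvbRealArc G.𝔐 x R (G.h m) P (pins m n o P) (fun k => P.xQ k - G.a m * P.xV k) (β m n o P) (Ψ m n o) (Err m)}).toReal)
  CΨ : ℝ
  Ψ_L2 : ∀ m (p : ℤ × ℤ) t, ‖l9Pt (G.h m) p - x‖ ≤ 2 * R → ∀ᶠ n in atTop,
    pvUpInt (pvLaw (εs n)) (fun o => ENNReal.ofReal (‖Ψ m n o (l9Pt (G.h m) p) t‖ ^ 2)) ≤ ENNReal.ofReal (CΨ * G.h m ^ 2)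

/-- **EXIT of ARM / S2, family-free** -/
def L9ExitArmA (c : ℝ) : Prop :=
  ∀ εs : ℕ → ℝ, (∀ n, 0 < εs n) → Tendsto εs atTop (𝓝 0) → ∀ (x : ℂ) (R : ℝ), 0 < R → Nonempty (L9ArmA εs x R c)

/-- **EXIT of THE WALL, family-free**: the ONLY place where a subsequence of `ε` is extracted -/
def L9ExitTRA (c : ℝ) : Prop :=
  ∀ εs : ℕ → ℝ, (∀ n, 0 < εs n) → Tendsto εs atTop (𝓝 0) → ∃ φ : ℕ → ℕ, StrictMono φ ∧ ∃ (τ : Type) (_ : Fintype τ) (_ : Nonempty τ) (G : L9Glob τ c),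
    ∀ (x : ℂ) (R : ℝ), 0 < R → Nonempty (L9LocA G (fun n => εs (φ n)) x R)

theorem l9a_eqns_cite : True := by
  have := @l9All.eq_1; have := @L9ExitArmA.eq_1; have := @L9ExitTRA.eq_1
  trivial

/-! ## 1. locality for free -/

theorem l9a_sub {X : Type} [Fintype X] (𝔅 : PvBulk X) (x : ℂ) (R : ℝ) (p : PVSample × (X → Bool)) : 𝔅.rims x R p ⊆ l9All x R p.1 :=
  fun _ hP => ⟨X, inferInstance, 𝔅, p.2, hP⟩

/-- what membership in `l9All` means -/
theorem l9a_mem {x : ℂ} {R : ℝ} {ω : PVSample} {P : PvbRim} (h : P ∈ l9All x R ω) :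
    ∃ (X : Type) (_ : Fintype X) (𝔅 : PvBulk X) (ξ : X → Bool), 𝔅.Adm (cfSites (pvConf ω)) ∧ 𝔅.Ok (cfSites (pvConf ω)) (Metric.closedBall x (6 * R)) ∧
      ∃ c : (𝔅.T (cfSites (pvConf ω))).Cyc, c.IsRim (𝔅.col (pvConf ω) ξ) ∧
        4 * R ≤ ‖𝔅.posF (cfSites (pvConf ω)) (x + 7 * R) ((𝔅.T (cfSites (pvConf ω))).src (c.e 0)) - x‖ ∧ P = 𝔅.enc (cfSites (pvConf ω)) (x + 7 * R) c := by
  obtain ⟨X, hX, 𝔅, ξ, hA, hOk, c, hc, h4, rfl⟩ := h
  exact ⟨X, hX, 𝔅, ξ, hA, hOk, c, hc, h4, rfl⟩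

/-- a property of ALL rims of ALL completions is what the deterministic layer (LOCALITY: 22, 278) proves family by family -/
theorem l9a_forall {x : ℂ} {R : ℝ} {ω : PVSample} {E : PvbRim → Prop}
    (h : ∀ (X : Type) [Fintype X] (𝔅 : PvBulk X) (ξ : X → Bool), 𝔅.Adm (cfSites (pvConf ω)) → 𝔅.Ok (cfSites (pvConf ω)) (Metric.closedBall x (6 * R)) →
      ∀ c : (𝔅.T (cfSites (pvConf ω))).Cyc, c.IsRim (𝔅.col (pvConf ω) ξ) →
        4 * R ≤ ‖𝔅.posF (cfSites (pvConf ω)) (x + 7 * R) ((𝔅.T (cfSites (pvConf ω))).src (c.e 0)) - x‖ → E (𝔅.enc (cfSites (pvConf ω)) (x + 7 * R) c)) :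
    ∀ P ∈ l9All x R ω, E P := by
  intro P hP
  obtain ⟨X, hX, 𝔅, ξ, hA, hOk, c, hc, h4, rfl⟩ := l9a_mem hP
  exact h X 𝔅 ξ hA hOk c hc h4

/-! ## 2. the law of the sample -/

section law

variable (X : Type) (ε : ℝ)

/-- the sample read on the two-level space -/
def l9aSm (o : PvGeoT × (PvColT × (X → Bool))) : PVSample := pvMerge (o.1, o.2.1)

theorem l9a_sm_eqns_cite : True := by
  have := @l9aSm.eq_1
  trivial

theorem l9a_sm_meas : Measurable (l9aSm X) :=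
  measurable_pvMerge.comp (measurable_fst.prodMk (measurable_fst.comp measurable_snd))

/-- the law of the sample -/
theorem l9a_map : ((pvGeo ε).prod (pvCol.prod (colLaw X))).map (l9aSm X) = pvLaw ε := by
  have h1 : (l9aSm X) = pvMerge ∘ (Prod.map id Prod.fst) := by
    funext o; rfl
  have hm : Measurable (Prod.map (id : PvGeoT → PvGeoT) (Prod.fst : PvColT × (X → Bool) → PvColT)) := measurable_id.prodMap measurable_fst
  rw [h1, ← Measure.map_map measurable_pvMerge hm, ← Measure.map_prod_map _ _ measurable_id measurable_fst, Measure.map_id,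
    Measure.map_fst_prod, measure_univ, one_smul, ← pvqu_law]

/-- **INPUT for events**: EVERY set of samples, by its outer measure -/
theorem l9a_P_le (E : Set PVSample) : (PvUp.iter (pvGeo ε) (pvCol.prod (colLaw X))).P {o | l9aSm X o ∈ E} ≤ pvLaw ε E := by
  refine (pvup_iter_P_le _ _ _).trans ?_
  have hm := measurableSet_toMeasurable (pvLaw ε) E
  calc ((pvGeo ε).prod (pvCol.prod (colLaw X))) {o | l9aSm X o ∈ E}
      ≤ ((pvGeo ε).prod (pvCol.prod (colLaw X))) (l9aSm X ⁻¹' toMeasurable (pvLaw ε) E) := measure_mono fun o ho => subset_toMeasurable _ _ ho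
    _ = pvLaw ε E := by rw [← Measure.map_apply (l9a_sm_meas X) hm, l9a_map, measure_toMeasurable]

/-- **INPUT for integrands**: EVERY function of the sample, by its upper integral -/
theorem l9a_E_le (F : PVSample → ENNReal) : (PvUp.iter (pvGeo ε) (pvCol.prod (colLaw X))).E (fun o => F (l9aSm X o)) ≤ pvUpInt (pvLaw ε) F := by
  refine le_iInf fun φ => ?_
  calc (PvUp.iter (pvGeo ε) (pvCol.prod (colLaw X))).E (fun o => F (l9aSm X o))
      ≤ (PvUp.iter (pvGeo ε) (pvCol.prod (colLaw X))).E (fun o => φ.1 (l9aSm X o)) := PvUp.mono _ fun o => φ.2.2 _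
    _ ≤ ∫⁻ o, φ.1 (l9aSm X o) ∂((pvGeo ε).prod (pvCol.prod (colLaw X))) := pvup_iter_E_le _ _ (φ.2.1.comp (l9a_sm_meas X))
    _ = ∫⁻ a, φ.1 a ∂(pvLaw ε) := by rw [← lintegral_map φ.2.1 (l9a_sm_meas X), l9a_map]

end law

/-! ## 3. the two shapes of events of the records -/

section ev

variable {X : Type} [Fintype X] (𝔅 : PvBulk X) (ε : ℝ) (x : ℂ) (R : ℝ)

/-- `∃ P ∈ rims, E P` -/
theorem l9a_ev_le (E : PVSample → PvbRim → Prop) :
    (PvUp.iter (pvGeo ε) (pvCol.prod (colLaw X))).P {o | ∃ P ∈ 𝔅.rims x R (l9aSm X o, o.2.2), E (l9aSm X o) P} ≤ pvLaw ε {ω | ∃ P ∈ l9All x R ω, E ω P} := by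
  refine le_trans (PvUp.P_mono _ ?_) (l9a_P_le X ε _)
  rintro o ⟨P, hP, hE⟩
  exact ⟨P, l9a_sub 𝔅 x R _ hP, hE⟩

/-- `¬ ∀ P ∈ rims, E P` -/
theorem l9a_bad_le (E : PVSample → PvbRim → Prop) :
    (PvUp.iter (pvGeo ε) (pvCol.prod (colLaw X))).P {o | ¬ ∀ P ∈ 𝔅.rims x R (l9aSm X o, o.2.2), E (l9aSm X o) P} ≤ pvLaw ε {ω | ¬ ∀ P ∈ l9All x R ω, E ω P} := by
  refine le_trans (PvUp.P_mono _ ?_) (l9a_P_le X ε _)
  intro o ho hall
  exact ho fun P hP => hall P (l9a_sub 𝔅 x R _ hP)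

theorem l9a_ev_real (E : PVSample → PvbRim → Prop) :
    ((PvUp.iter (pvGeo ε) (pvCol.prod (colLaw X))).P {o | ∃ P ∈ 𝔅.rims x R (l9aSm X o, o.2.2), E (l9aSm X o) P}).toReal
      ≤ (pvLaw ε {ω | ∃ P ∈ l9All x R ω, E ω P}).toReal :=
  ENNReal.toReal_mono (measure_ne_top _ _) (l9a_ev_le 𝔅 ε x R E)

theorem l9a_bad_real (E : PVSample → PvbRim → Prop) :
    ((PvUp.iter (pvGeo ε) (pvCol.prod (colLaw X))).P {o | ¬ ∀ P ∈ 𝔅.rims x R (l9aSm X o, o.2.2), E (l9aSm X o) P}).toReal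
      ≤ (pvLaw ε {ω | ¬ ∀ P ∈ l9All x R ω, E ω P}).toReal :=
  ENNReal.toReal_mono (measure_ne_top _ _) (l9a_bad_le 𝔅 ε x R E)

end ev

end Claimed.Agent.R289
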