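-- KEEP
import Claimed.Agent.R289.Defs.Bulk
import Claimed.Agent.R289.S1.Bessel
import Claimed.Agent.R289.Mesh.Tri
import Claimed.Agent.R289.Arm.Law
import Claimed.Agent.R289.Fan.Obs

/-!
# Row 289 (S0537, Cardy for Poisson-Voronoi), BOX:CR, file Cr/Main: FROM BULK TRANSPORT TO THE DISCRETE CAUCHY-RIEMANN RELATION (8.3), MIRROR FORM      (head helper7; prefix `pvcr_`, defs `PvMap.sel*`, `PvMap.obs`, `PvBulk.cr*`)

TEX: 08-observable.tex, first paragraph of the proof of Prop. 8.4 (holomorphy) up to (8.3);  blueprint `origin/helper7:notes/R289/LM_7.md` (LM.6-LM.9);  mirror trick of helper211, ruling X1-X4 of helper161.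

## What is proved here
INPUT  `PvTransport` = bulk transport (Theorem 3.1) with an ARBITRARY scalar `a` (`Defs/Bulk.lean` of helper163; Prop. 7.1 is off the route).
OUTPUT `PvCR`: along the universal subsequence, for every bulk family with a closing face `q` whose three vertices are extra, every ball of agreement and every test `f`:
      `E |(1 - a) S(Y)| → 0`   and   `E |a S̄(Y)| → 0`   (through a measurable majorant `u n` on the labelled geometries, as in `PvTransport`),      `S(Y) = ∑_t f(z_t) ∑_j d_tj F^η_{m_j(t)}`,   `S̄` = the same with `conj F^η`.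
This is STRONGER than (8.3) (absolute value inside) and needs NO measurability of the family: only measurable majorants are integrated.

## The chain
quenched, on a finite `PvMap` (colours averaged by `colLaw V`):
 G1 `pvcr_face`, `pvcr_g1`   `w` with zero sum on every face, `d₀` a tag:   `∑_d w d 1{InComp s d₀ d} = lsum s w d₀`
 G2 `pvcr_g2`                `∑_d w d F d = 4 E[w_* X_{λ_*}]`   (`F = T.obs q`, `w_* X_{λ_*} = T.selX s w q`), and the conjugate form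
 G3 `pvcr_x4`                `∑_j ω^j F(nxt^j d) = 0` off the closing face   (= X4 of helper91 ⟸ `orth_count` of S1);   `pvcr_u0`, `pvcr_q0`
 G4 `pvcr_id1`, `pvcr_id2`   `(1 - a) S = 4 E[w_* R_*]`,   `a S̄ = - 4 E[conj w_* R_*]`,   `R = Q - a V`
 G5 `pvcr_bessel`            `E ∑_k |X_{λ(q_k)}|² ≤ (1/4) ∑_d |x d|²`   (⟸ `bessel` of S1)
 G6 `pvcr_quench`            `|(1 - a) S|, |a S̄| ≤ 12 τ + 3 δ (|1-a|² + |a|²) 𝓔 + 2 p_τ / δ`,   `𝓔 = ∑_d |wU d|² + |wQ d|²`,  `p_τ` = quenched probability that `|R_*| > τ`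
annealed:
 A1 `pvcr_seam`     at a fixed good labelled geometry the colouring of the vertices of `T Y` is uniform      (QCOL seam: kits of helper261 `PppQ.lean`, helper268 `S1/Meas.lean`)
 A2 `pvcr_energy`   a measurable majorant of `𝓔(Y)` with bounded mean      (MESH: second moment of the diameters, L2.3 (iii))
 A3 `pvcr_bad`      the selected tag has an EXTRA source vertex, so its label escapes from every ball: `{col ∈ Bc} ⊆ Bad`.   No rim lemma is needed.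
 `pvcr_main : PvTransport → PvCR`.
-/

set_option autoImplicit false

namespace Claimed.Agent.R289

open MeasureTheory ProbabilityTheory Set Filter Topology Claims.C0465
open scoped ContDiff ENNReal

/-! ## 0. vocabulary -/

namespace PvMap

variable {V D : Type} (T : PvMap V D)

open Classical in
/-- `w_* H_{λ_*}(e)`: the labels `1, ω̄, ω` on `q, nxt q, nxt² q` run AGAINST `nxt` (paper: opposite to the positive order at `t_*`) -/
noncomputable def selH (s : V → Bool) (q e : D) : ℂ :=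
  (if T.Tag s q ∧ T.InComp s q e then 1 else 0) + (if T.Tag s (T.nxt q) ∧ T.InComp s (T.nxt q) e then (starRingEnd ℂ) pvOm else 0)
    + (if T.Tag s (T.nxt (T.nxt q)) ∧ T.InComp s (T.nxt (T.nxt q)) e then pvOm else 0)

/-- the quenched observable `F_e = 4 E[w_* H_{λ_*}(e)]` with closing face `q` -/
noncomputable def obs (q e : D) : ℂ := 4 * ∫ s, T.selH s q e ∂colLaw V

/-- `w_* X_{λ_*}` for the field with summands `w` -/
noncomputable def selX (s : V → Bool) (w : D → ℂ) (q : D) : ℂ :=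
  T.lsum s w q + (starRingEnd ℂ) pvOm * T.lsum s w (T.nxt q) + pvOm * T.lsum s w (T.nxt (T.nxt q))

/-- `conj(w_*) X_{λ_*}` -/
noncomputable def selXc (s : V → Bool) (w : D → ℂ) (q : D) : ℂ :=
  T.lsum s w q + pvOm * T.lsum s w (T.nxt q) + (starRingEnd ℂ) pvOm * T.lsum s w (T.nxt (T.nxt q))

/-- the colourings for which the field at the selected label exceeds `τ` -/
def selBad (w : D → ℂ) (q : D) (τ : ℝ) : Set (V → Bool) := {s | ∃ d, T.SF q d ∧ τ < ‖T.lsum s w d‖}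

end PvMap

namespace PvBulk

variable {X : Type} (𝔅 : PvBulk X)

open Classical in
/-- the `U`-summand `f(z_t) p_t ω^j` -/
noncomputable def wU (Y : Set ℂ) (f : ℂ → ℂ) (d : 𝔅.D Y) : ℂ :=
  if 𝔅.Emb Y d then f ((𝔅.T Y).bary (𝔅.pos Y) d) * (𝔅.T Y).upart (𝔅.pos Y) d else 0

/-- the good geometries: finite sphere, agreement on `closedBall x (6R)` (every embedded face is a Delaunay triangle: `Ok.emb`), the three vertices of the closing face are extra -/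
structure Gd (q : ∀ Y, 𝔅.D Y) (x : ℂ) (R : ℝ) (Y : Set ℂ) : Prop where
  finV : Finite (𝔅.V Y)
  finD : Finite (𝔅.D Y)
  ok : 𝔅.Ok Y (Metric.closedBall x (6 * R))
  cl : ∀ d, (𝔅.T Y).SF (q Y) d → ∃ e : X, 𝔅.lab Y ((𝔅.T Y).src d) = Sum.inr e

open Classical in
/-- `S(Y) = ∑_t f(z_t) ∑_j d_tj F_{m_j(t)}` on the good geometries -/
noncomputable def crS (q : ∀ Y, 𝔅.D Y) (x : ℂ) (R : ℝ) (f : ℂ → ℂ) (Y : Set ℂ) : ℂ :=
  if 𝔅.Gd q x R Y then ∑ᶠ d, 𝔅.wV Y f d * (𝔅.T Y).obs (q Y) d else 0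

open Classical in
/-- `S̄(Y)`: the same with the conjugate observable -/
noncomputable def crSc (q : ∀ Y, 𝔅.D Y) (x : ℂ) (R : ℝ) (f : ℂ → ℂ) (Y : Set ℂ) : ℂ :=
  if 𝔅.Gd q x R Y then ∑ᶠ d, 𝔅.wV Y f d * (starRingEnd ℂ) ((𝔅.T Y).obs (q Y) d) else 0

/-- the energy `𝓔(Y) = ∑_d |wU d|² + |wQ d|²` -/
noncomputable def crE (f : ℂ → ℂ) (Y : Set ℂ) : ℝ := ∑ᶠ d, (‖𝔅.wU Y f d‖ ^ 2 + ‖𝔅.wQ Y f d‖ ^ 2)

/-- the residual summand `wQ - a wV` -/
noncomputable def wR (a : ℂ) (Y : Set ℂ) (f : ℂ → ℂ) (d : 𝔅.D Y) : ℂ := 𝔅.wQ Y f d - a * (𝔅.wU Y f d + 𝔅.wQ Y f d)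

open Classical in
/-- the bad colourings of the geometry `Y` -/
def crBc (q : ∀ Y, 𝔅.D Y) (a x : ℂ) (R : ℝ) (f : ℂ → ℂ) (τ : ℝ) (Y : Set ℂ) : Set (𝔅.V Y → Bool) :=
  {s | 𝔅.Gd q x R Y ∧ s ∈ (𝔅.T Y).selBad (𝔅.wR a Y f) (q Y) τ}

end PvBulk

/-- **EXIT OF BOX:CR** = (8.3) in mirror form, in `L¹` of the geometry, in the MAJORANT style of `PvTransport`: no measurability of the bulk family is asked or claimed.
`S(Y)`, `S̄(Y)` are functions of the site set; `u n` is a measurable majorant on the labelled geometries with mean `→ 0`. -/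
def PvCR : Prop :=
  ∀ εs : ℕ → ℝ, (∀ n, 0 < εs n) → Tendsto εs atTop (𝓝 0) → ∃ φ : ℕ → ℕ, StrictMono φ ∧ ∃ a : ℂ,
    ∀ (X : Type) [Fintype X] (𝔅 : PvBulk X) (q : ∀ Y, 𝔅.D Y) (x : ℂ) (R : ℝ) (f : ℂ → ℂ), 0 < R → ContDiff ℝ ∞ f → tsupport f ⊆ Metric.ball x R →
      ∃ u : ℕ → PvGeoT → ℝ≥0∞, (∀ n, Measurable (u n)) ∧
        (∀ n g, PvgOk g → ‖(1 - a) * 𝔅.crS q x R f (pvgSites g)‖ₑ ≤ u n g ∧ ‖a * 𝔅.crSc q x R f (pvgSites g)‖ₑ ≤ u n g) ∧
        Tendsto (fun n => ∫⁻ g, u n g ∂(pvGeo (εs (φ n)))) atTop (𝓝 0)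

theorem pvcr_eqns_cite : True := by
  have := @PvMap.selH.eq_1; have := @PvMap.obs.eq_1; have := @PvMap.selX.eq_1; have := @PvMap.selXc.eq_1; have := @PvMap.selBad.eq_1
  have := @PvBulk.wU.eq_1; have := @PvBulk.crS.eq_1; have := @PvBulk.crSc.eq_1; have := @PvBulk.crE.eq_1; have := @PvBulk.wR.eq_1
  have := @PvBulk.crBc.eq_1; have := @PvCR.eq_1
  trivial


/-! ## 1. the quenched algebra on a finite map -/

section quenched

variable {V D : Type} (T : PvMap V D)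

/-- an occupied dart of the wall of the tag `d₀` is never reached inside `Γ \ L`.
Plan: induction along `InComp`; `d₀` is not occupied; a step `b = opp a` keeps `Occ` and `Wall`; a turning step starts off the wall. -/
theorem pvcr_not_occ (s : V → Bool) {d₀ e : D} (h0 : T.Tag s d₀) (he : T.InComp s d₀ e) (hw : T.Wall s d₀ e) : ¬ T.Occ s e := by
  unfold PvMap.InComp at he
  induction he with
  | refl => exact fun h => h h0.1
  | @tail a b _ hstep ih =>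
    rcases hstep with rfl | ⟨hsf, hna⟩
    · intro ho
      have hoa : T.Occ s a := by
        have := T.occ_opp ho
        rwa [T.opp_opp] at this
      exact ih (Relation.ReflTransGen.tail hw (Or.inr ⟨ho, (T.opp_opp a).symm⟩)) hoa
    · exact absurd (PvMap.Wall.trans T hw (PvMap.Wall.of_SF T s (T.sf_symm hsf))) hna

/-- on the wall: reached ⟺ same label.
Plan: `←` is the 4th component of `SameLab`.   `→`: `pvcr_not_occ` gives `s (src e) = s (tgt e)`; `wall_occ h0 hw` gives an occupied dart in the face of `e`; `tag_of_occ` gives `Tag s e`; assemble `⟨h0, _, hw, he⟩`. -/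
theorem pvcr_on_wall (s : V → Bool) {d₀ e : D} (h0 : T.Tag s d₀) (hw : T.Wall s d₀ e) : T.InComp s d₀ e ↔ T.SameLab s d₀ e := by
  refine ⟨fun he => ?_, fun h => h.2.2.2⟩
  have hno := pvcr_not_occ T s h0 he hw
  have heq : s (T.src e) = s (T.tgt e) := by
    unfold PvMap.Occ at hno
    exact not_not.1 hno
  exact ⟨h0, T.tag_of_occ heq (T.wall_occ h0 hw), hw, he⟩

/-- off the wall: `InComp` is constant on a face.
Plan: `→`: append the step `CStep s d₀ (nxt e) e` (`SF (nxt e) e` by `sf_symm (sf_nxt e)`, and `¬ Wall s d₀ (nxt e)` because `Wall` is closed under `SF`: `Wall.trans _ (Wall.of_SF ..)`);   `←`: append `CStep s d₀ e (nxt e)`. -/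
theorem pvcr_off_wall (s : V → Bool) {d₀ e : D} (hw : ¬ T.Wall s d₀ e) : T.InComp s d₀ (T.nxt e) ↔ T.InComp s d₀ e := by
  constructor
  · intro h
    refine Relation.ReflTransGen.tail h (Or.inr ⟨T.sf_symm (T.sf_nxt e), fun h1 => hw ?_⟩)
    exact PvMap.Wall.trans T h1 (PvMap.Wall.of_SF T s (T.sf_symm (T.sf_nxt e)))
  · intro h
    exact Relation.ReflTransGen.tail h (Or.inr ⟨T.sf_nxt e, hw⟩)

open Classical in
/-- **G1, one face**.
Plan: `by_cases hW : T.Wall s d₀ e`.   On the wall: the three darts are on the wall (`Wall.trans hW (Wall.of_SF ..)`), rewrite the three `InComp` by `pvcr_on_wall`: both sides are syntactically equal.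
Off the wall: the three `SameLab` are false (3rd component), the three `InComp` are equivalent (`pvcr_off_wall` twice): `by_cases` on `InComp s d₀ e`, the left side is `hw` or `0`. -/
theorem pvcr_face (s : V → Bool) {d₀ : D} (h0 : T.Tag s d₀) (w : D → ℂ) (e : D) (hw : w e + w (T.nxt e) + w (T.nxt (T.nxt e)) = 0) :
    (if T.InComp s d₀ e then w e else 0) + (if T.InComp s d₀ (T.nxt e) then w (T.nxt e) else 0) + (if T.InComp s d₀ (T.nxt (T.nxt e)) then w (T.nxt (T.nxt e)) else 0)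
      = (if T.SameLab s d₀ e then w e else 0) + (if T.SameLab s d₀ (T.nxt e) then w (T.nxt e) else 0)
        + (if T.SameLab s d₀ (T.nxt (T.nxt e)) then w (T.nxt (T.nxt e)) else 0) := by
  by_cases hW : T.Wall s d₀ e
  · have hW1 : T.Wall s d₀ (T.nxt e) := PvMap.Wall.trans T hW (PvMap.Wall.of_SF T s (T.sf_nxt e))
    have hW2 : T.Wall s d₀ (T.nxt (T.nxt e)) := PvMap.Wall.trans T hW (PvMap.Wall.of_SF T s (T.sf_nxt2 e))
    simp only [pvcr_on_wall T s h0 hW, pvcr_on_wall T s h0 hW1, pvcr_on_wall T s h0 hW2]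
  · have hW1 : ¬ T.Wall s d₀ (T.nxt e) := fun h => hW (PvMap.Wall.trans T h (PvMap.Wall.of_SF T s (T.sf_symm (T.sf_nxt e))))
    have hW2 : ¬ T.Wall s d₀ (T.nxt (T.nxt e)) := fun h => hW (PvMap.Wall.trans T h (PvMap.Wall.of_SF T s (T.sf_symm (T.sf_nxt2 e))))
    have e1 := pvcr_off_wall T s hW
    have e2 := (pvcr_off_wall T s hW1).trans e1
    rw [if_neg (fun h : T.SameLab s d₀ e => hW h.2.2.1), if_neg (fun h : T.SameLab s d₀ (T.nxt e) => hW1 h.2.2.1),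
      if_neg (fun h : T.SameLab s d₀ (T.nxt (T.nxt e)) => hW2 h.2.2.1)]
    by_cases hI : T.InComp s d₀ e
    · rw [if_pos hI, if_pos (e1.2 hI), if_pos (e2.2 hI), hw]
      simp
    · rw [if_neg hI, if_neg (fun h => hI (e1.1 h)), if_neg (fun h => hI (e2.1 h))]

/-- a sum over the darts is one third of the sum of the face sums (`nxt` is a bijection).
Plan: `Fintype.ofFinite D`, `finsum_eq_sum_of_fintype`, `Finset.sum_add_distrib`, and `Equiv.sum_comp` for the permutation `nxt` (inverse `nxt ∘ nxt`, by `nxt3`) and for its square. -/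
theorem pvcr_sum_face [Finite D] (g : D → ℂ) : ∑ᶠ d, (g d + g (T.nxt d) + g (T.nxt (T.nxt d))) = 3 * ∑ᶠ d, g d := by
  classical
  haveI := Fintype.ofFinite D
  let σ : Equiv.Perm D := ⟨T.nxt, fun d => T.nxt (T.nxt d), fun d => T.nxt3 d, fun d => T.nxt3 d⟩
  have h1 : ∑ d, g (T.nxt d) = ∑ d, g d := Equiv.sum_comp σ g
  have h2 : ∑ d, g (T.nxt (T.nxt d)) = ∑ d, g d := (Equiv.sum_comp σ (fun d => g (T.nxt d))).trans h1
  rw [finsum_eq_sum_of_fintype, finsum_eq_sum_of_fintype, Finset.sum_add_distrib, Finset.sum_add_distrib, h1, h2]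
  ring

open Classical in
/-- **G1**.
Plan: `lsum s w d₀ = ∑ᶠ d, if SameLab s d₀ d then w d else 0` (`finsum_congr` + `finsum_eq_if`-style: `∑ᶠ (_ : p), c = if p then c else 0`);   apply `pvcr_sum_face` to both `g = fun d => if InComp .. then w d else 0` and `g' = fun d => if SameLab .. then w d else 0`;   the face sums agree by `pvcr_face`; cancel the factor `3`. -/
theorem pvcr_g1 [Finite D] (s : V → Bool) {d₀ : D} (h0 : T.Tag s d₀) (w : D → ℂ) (hw : ∀ e, w e + w (T.nxt e) + w (T.nxt (T.nxt e)) = 0) :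
    ∑ᶠ d, (if T.InComp s d₀ d then w d else 0) = T.lsum s w d₀ := by
  have hl : T.lsum s w d₀ = ∑ᶠ d, (if T.SameLab s d₀ d then w d else 0) := by
    unfold PvMap.lsum
    refine finsum_congr fun d => ?_
    by_cases h : T.SameLab s d₀ d
    · rw [if_pos h, finsum_eq_if, if_pos h]
    · rw [if_neg h, finsum_eq_if, if_neg h]
  have h1 := pvcr_sum_face T (fun d => if T.InComp s d₀ d then w d else 0)
  have h2 := pvcr_sum_face T (fun d => if T.SameLab s d₀ d then w d else 0)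
  have h3 : ∑ᶠ d, ((if T.InComp s d₀ d then w d else 0) + (if T.InComp s d₀ (T.nxt d) then w (T.nxt d) else 0)
        + (if T.InComp s d₀ (T.nxt (T.nxt d)) then w (T.nxt (T.nxt d)) else 0))
      = ∑ᶠ d, ((if T.SameLab s d₀ d then w d else 0) + (if T.SameLab s d₀ (T.nxt d) then w (T.nxt d) else 0)
        + (if T.SameLab s d₀ (T.nxt (T.nxt d)) then w (T.nxt (T.nxt d)) else 0)) :=
    finsum_congr fun d => pvcr_face T s h0 w d (hw d)
  rw [hl]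
  have h4 : (3 : ℂ) * ∑ᶠ d, (if T.InComp s d₀ d then w d else 0) = 3 * ∑ᶠ d, (if T.SameLab s d₀ d then w d else 0) := by
    rw [← h1, ← h2]
    exact h3
  exact mul_left_cancel₀ (by norm_num) h4

/-- `lsum` vanishes at a dart which is not a tag (`SameLab s d d'` contains `Tag s d`: every inner `finsum` is over an empty proposition) -/
theorem pvcr_lsum_not_tag (s : V → Bool) (w : D → ℂ) {d : D} (h : ¬ T.Tag s d) : T.lsum s w d = 0 := by
  unfold PvMap.lsum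
  apply finsum_eq_zero_of_forall_eq_zero
  intro d'
  classical
  rw [finsum_eq_if, if_neg (fun h' => h h'.1)]

open Classical in
/-- helper: G1 with the tag condition inside -/
theorem pvcr_g1_tag [Finite D] (s : V → Bool) (q' : D) (w : D → ℂ) (hw : ∀ e, w e + w (T.nxt e) + w (T.nxt (T.nxt e)) = 0) :
    ∑ᶠ d, (if T.Tag s q' ∧ T.InComp s q' d then w d else 0) = T.lsum s w q' := by
  by_cases h : T.Tag s q'
  · simp only [h, true_and]
    exact pvcr_g1 T s h w hw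
  · simp only [h, false_and, if_false, finsum_zero]
    exact (pvcr_lsum_not_tag T s w h).symm

/-- `∑_d w d · w_* H_{λ_*}(d) = w_* X_{λ_*}` at a fixed colouring.
Plan: unfold `selH`, `selX`; distribute (`mul_add`, `finsum_add_distrib` with `Set.toFinite _`); for each of the three darts `q'`: if `Tag s q'` use `pvcr_g1` (pull the constant out: `mul_ite`, `finsum_mul`/`mul_finsum`), otherwise both sides vanish (`pvcr_lsum_not_tag`). -/
theorem pvcr_selH_sum [Finite D] (s : V → Bool) (q : D) (w : D → ℂ) (hw : ∀ e, w e + w (T.nxt e) + w (T.nxt (T.nxt e)) = 0) :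
    ∑ᶠ d, w d * T.selH s q d = T.selX s w q := by
  classical
  have := Fintype.ofFinite D
  unfold PvMap.selX
  rw [← pvcr_g1_tag T s q w hw, ← pvcr_g1_tag T s (T.nxt q) w hw, ← pvcr_g1_tag T s (T.nxt (T.nxt q)) w hw]
  simp only [finsum_eq_sum_of_fintype, Finset.mul_sum, ← Finset.sum_add_distrib]
  refine Finset.sum_congr rfl fun d _ => ?_
  unfold PvMap.selH
  simp only [mul_add, mul_ite, mul_one, mul_zero]
  congr 1
  · congr 1
    split_ifs <;> ring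
  · split_ifs <;> ring

/-- the conjugate form -/
theorem pvcr_selH_sum_conj [Finite D] (s : V → Bool) (q : D) (w : D → ℂ) (hw : ∀ e, w e + w (T.nxt e) + w (T.nxt (T.nxt e)) = 0) :
    ∑ᶠ d, w d * (starRingEnd ℂ) (T.selH s q d) = T.selXc s w q := by
  classical
  have := Fintype.ofFinite D
  unfold PvMap.selXc
  rw [← pvcr_g1_tag T s q w hw, ← pvcr_g1_tag T s (T.nxt q) w hw, ← pvcr_g1_tag T s (T.nxt (T.nxt q)) w hw]
  simp only [finsum_eq_sum_of_fintype, Finset.mul_sum, ← Finset.sum_add_distrib]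
  refine Finset.sum_congr rfl fun d _ => ?_
  unfold PvMap.selH
  simp only [map_add, apply_ite (starRingEnd ℂ), map_one, map_zero, Complex.conj_conj, mul_add, mul_ite, mul_one, mul_zero]
  congr 1
  · congr 1
    split_ifs <;> ring
  · split_ifs <;> ring

/-- every function of the colouring of a finite vertex set is integrable (`Integrable.of_finite`, as in `pvfo_integral_fin` of `S1/Bessel.lean`) -/
theorem pvcr_integrable [Finite V] (g : (V → Bool) → ℂ) : Integrable g (colLaw V) := by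
  have := Fintype.ofFinite V
  exact Integrable.of_finite

/-- **G2**.
Plan: `obs = 4 * ∫ selH`; `Fintype.ofFinite D`; `finsum_eq_sum_of_fintype`; `w d * (4 * ∫ ..) = 4 * ∫ w d * ..` (`integral_const_mul`); `integral_finset_sum` (integrability: `pvcr_integrable`); `pvcr_selH_sum` under the integral. -/
theorem pvcr_g2 [Finite V] [Finite D] (q : D) (w : D → ℂ) (hw : ∀ e, w e + w (T.nxt e) + w (T.nxt (T.nxt e)) = 0) :
    ∑ᶠ d, w d * T.obs q d = 4 * ∫ s, T.selX s w q ∂colLaw V := by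
  classical
  have := Fintype.ofFinite D
  have h1 : ∀ s, T.selX s w q = ∑ d, w d * T.selH s q d := by
    intro s
    rw [← pvcr_selH_sum T s q w hw, finsum_eq_sum_of_fintype]
  simp only [h1]
  rw [integral_finsetSum _ (fun d _ => pvcr_integrable _), finsum_eq_sum_of_fintype, Finset.mul_sum]
  refine Finset.sum_congr rfl fun d _ => ?_
  unfold PvMap.obs
  rw [integral_const_mul]
  ring

/-- **G2, conjugate form** -/
theorem pvcr_g2c [Finite V] [Finite D] (q : D) (w : D → ℂ) (hw : ∀ e, w e + w (T.nxt e) + w (T.nxt (T.nxt e)) = 0) :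
    ∑ᶠ d, w d * (starRingEnd ℂ) (T.obs q d) = 4 * ∫ s, T.selXc s w q ∂colLaw V := by
  classical
  have := Fintype.ofFinite D
  have h1 : ∀ s, T.selXc s w q = ∑ d, w d * (starRingEnd ℂ) (T.selH s q d) := by
    intro s
    rw [← pvcr_selH_sum_conj T s q w hw, finsum_eq_sum_of_fintype]
  simp only [h1]
  rw [integral_finsetSum _ (fun d _ => pvcr_integrable _), finsum_eq_sum_of_fintype, Finset.mul_sum]
  refine Finset.sum_congr rfl fun d _ => ?_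
  unfold PvMap.obs
  rw [integral_const_mul, map_mul, ← integral_conj]
  have : (starRingEnd ℂ) (4 : ℂ) = 4 := by
    rw [show (4 : ℂ) = ((4 : ℝ) : ℂ) by norm_num, Complex.conj_ofReal]
  rw [this]
  ring

/-- THE BRIDGE to the counting form of helper91 (`Fan/Obs.lean`): the integral over the finite probability space of the colourings is a normalised count -/
theorem pvcr_obs_eq [Fintype V] (q e : D) : T.obs q e = T.obsF q e := by
  classical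
  unfold PvMap.obs PvMap.obsF PvMap.obsN
  rw [PvMap.pvfo_integral_fin]
  have h : ∀ (d : D) (c : ℂ), ∑ s : V → Bool, (if T.Tag s d ∧ T.InComp s d e then c else 0)
      = c * ((Finset.univ.filter fun s : V → Bool => T.Tag s d ∧ T.InComp s d e).card : ℂ) := by
    intro d c
    rw [← Finset.sum_filter, Finset.sum_const, nsmul_eq_mul, mul_comm]
  unfold PvMap.selH
  rw [Finset.sum_add_distrib, Finset.sum_add_distrib, h, h, h]
  rw [one_div, inv_pow]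
  ring

/-- **G3 = X4 of helper91**: orthogonality against the closing star.
Plan: by `pvcr_face` with `w = (1, ω, ω̄)` the left side is `4 ∑_{j,k} ω^{j-k} M k j`, `M k j = colLaw {SameLab s (nxt^k q) (nxt^j d)}`; `orth_count` (S1/Orth): `M k j = M (k+1) (j-1)`, so `M` depends on `k + j` only and the sum is `∑_u m(u) ω^u ∑_k ω^k = 0`. -/
theorem pvcr_x4 [Finite V] [Finite D] (hT : T.IsSph) {q d : D} (h : ¬ T.SF q d) :
    T.obs q d + pvOm * T.obs q (T.nxt d) + (starRingEnd ℂ) pvOm * T.obs q (T.nxt (T.nxt d)) = 0 := by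
  cases nonempty_fintype V
  rw [pvcr_obs_eq, pvcr_obs_eq, pvcr_obs_eq]
  exact pv82_orth hT h

/-- the `U`-field is orthogonal to the closing star.
Plan: `pvcr_sum_face` with `g d = w d * obs q d`: the face sum is `w d * (obs q d + ω obs q (nxt d) + ω̄ obs q (nxt² d))` (`hw` twice, `pvOm_sq`), which vanishes by `pvcr_x4` if `¬ SF q d`, and because `w d = 0` on the face of `q` (`hq` + `hw`, `ω ≠ 0`) otherwise. -/
theorem pvcr_u0 [Finite V] [Finite D] (hT : T.IsSph) (q : D) (w : D → ℂ) (hw : ∀ d, w (T.nxt d) = pvOm * w d) (hq : w q = 0) :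
    ∑ᶠ d, w d * T.obs q d = 0 := by
  have h3 := pvcr_sum_face T (fun d => w d * T.obs q d)
  have h0 : ∀ d, (w d * T.obs q d + w (T.nxt d) * T.obs q (T.nxt d) + w (T.nxt (T.nxt d)) * T.obs q (T.nxt (T.nxt d))) = 0 := by
    intro d
    rw [hw (T.nxt d), hw d]
    by_cases h : T.SF q d
    · have hd : w d = 0 := by
        rcases h with h | h | h
        · rw [h, hq]
        · rw [h, hw, hq, mul_zero]
        · rw [h, hw, hw, hq, mul_zero, mul_zero]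
      rw [hd]; ring
    · have h4 := pvcr_x4 T hT h
      linear_combination w d * h4 + w d * T.obs q (T.nxt (T.nxt d)) * pvOm_sq
  simp only [h0, finsum_zero] at h3
  have h5 : (3 : ℂ) ≠ 0 := by norm_num
  exact (mul_eq_zero.1 h3.symm).resolve_left h5

/-- mirror: the `Q`-field is orthogonal to the conjugate star.
Plan: as `pvcr_u0`, with the complex conjugate of `pvcr_x4` (`map_add`, `map_mul`, `Complex.conj_conj`). -/
theorem pvcr_q0 [Finite V] [Finite D] (hT : T.IsSph) (q : D) (w : D → ℂ) (hw : ∀ d, w (T.nxt d) = (starRingEnd ℂ) pvOm * w d) (hq : w q = 0) :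
    ∑ᶠ d, w d * (starRingEnd ℂ) (T.obs q d) = 0 := by
  have h3 := pvcr_sum_face T (fun d => w d * (starRingEnd ℂ) (T.obs q d))
  have h0 : ∀ d, (w d * (starRingEnd ℂ) (T.obs q d) + w (T.nxt d) * (starRingEnd ℂ) (T.obs q (T.nxt d))
      + w (T.nxt (T.nxt d)) * (starRingEnd ℂ) (T.obs q (T.nxt (T.nxt d)))) = 0 := by
    intro d
    rw [hw (T.nxt d), hw d]
    by_cases h : T.SF q d
    · have hd : w d = 0 := by
        rcases h with h | h | h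
        · rw [h, hq]
        · rw [h, hw, hq, mul_zero]
        · rw [h, hw, hw, hq, mul_zero, mul_zero]
      rw [hd]; ring
    · have h4 := congrArg (starRingEnd ℂ) (pvcr_x4 T hT h)
      simp only [map_add, map_mul, Complex.conj_conj, map_zero] at h4
      linear_combination w d * h4 + w d * (starRingEnd ℂ) (T.obs q (T.nxt (T.nxt d))) * pvOm_conj_sq
  simp only [h0, finsum_zero] at h3
  have h5 : (3 : ℂ) ≠ 0 := by norm_num
  exact (mul_eq_zero.1 h3.symm).resolve_left h5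

/-- **G4** `(1 - a) S = 4 E[w_* R_*]`.
Plan: `∑ wU F = 0` (`pvcr_u0`), so `S = ∑ wQ F` and `(1 - a) S = ∑ (wQ - a (wU + wQ)) F`; the weight has zero face sums (`hU`, `hQ`, `pvOm_sum`); `pvcr_g2`. -/
theorem pvcr_id1 [Finite V] [Finite D] (hT : T.IsSph) (q : D) (wU wQ : D → ℂ) (hU : ∀ d, wU (T.nxt d) = pvOm * wU d)
    (hQ : ∀ d, wQ (T.nxt d) = (starRingEnd ℂ) pvOm * wQ d) (hU0 : wU q = 0) (a : ℂ) :
    (1 - a) * ∑ᶠ d, (wU d + wQ d) * T.obs q d = 4 * ∫ s, T.selX s (fun d => wQ d - a * (wU d + wQ d)) q ∂colLaw V := by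
  have hz : ∀ e, (fun d => wQ d - a * (wU d + wQ d)) e + (fun d => wQ d - a * (wU d + wQ d)) (T.nxt e)
      + (fun d => wQ d - a * (wU d + wQ d)) (T.nxt (T.nxt e)) = 0 := by
    intro e
    simp only [hU, hQ]
    linear_combination ((1 - a) * wQ e - a * wU e) * pvOm_sum + (1 - a) * wQ e * pvOm_conj_sq - a * wU e * pvOm_sq
  rw [← pvcr_g2 T q _ hz]
  have h1 := pvcr_u0 T hT q wU hU hU0
  have e1 : ∑ᶠ d, (wU d + wQ d) * T.obs q d = ∑ᶠ d, wU d * T.obs q d + ∑ᶠ d, wQ d * T.obs q d := by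
    rw [← finsum_add_distrib (Set.toFinite _) (Set.toFinite _)]
    exact finsum_congr fun d => by ring
  have e2 : ∑ᶠ d, (wQ d - a * (wU d + wQ d)) * T.obs q d
      = ∑ᶠ d, wQ d * T.obs q d - a * (∑ᶠ d, wU d * T.obs q d + ∑ᶠ d, wQ d * T.obs q d) := by
    rw [← finsum_add_distrib (Set.toFinite _) (Set.toFinite _), mul_finsum,
      ← finsum_sub_distrib (Set.toFinite _) (Set.toFinite _)]
    exact finsum_congr fun d => by ring
  rw [e1, e2, h1]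
  ring

/-- **G4, mirror** `a S̄ = - 4 E[conj(w_*) R_*]`.
Plan: `∑ wQ conj F = 0` (`pvcr_q0`), so `a S̄ = - ∑ (wQ - a (wU + wQ)) conj F`; `pvcr_g2c`. -/
theorem pvcr_id2 [Finite V] [Finite D] (hT : T.IsSph) (q : D) (wU wQ : D → ℂ) (hU : ∀ d, wU (T.nxt d) = pvOm * wU d)
    (hQ : ∀ d, wQ (T.nxt d) = (starRingEnd ℂ) pvOm * wQ d) (hQ0 : wQ q = 0) (a : ℂ) :
    a * ∑ᶠ d, (wU d + wQ d) * (starRingEnd ℂ) (T.obs q d) = - (4 * ∫ s, T.selXc s (fun d => wQ d - a * (wU d + wQ d)) q ∂colLaw V) := by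
  have hz : ∀ e, (fun d => wQ d - a * (wU d + wQ d)) e + (fun d => wQ d - a * (wU d + wQ d)) (T.nxt e)
      + (fun d => wQ d - a * (wU d + wQ d)) (T.nxt (T.nxt e)) = 0 := by
    intro e
    simp only [hU, hQ]
    linear_combination ((1 - a) * wQ e - a * wU e) * pvOm_sum + (1 - a) * wQ e * pvOm_conj_sq - a * wU e * pvOm_sq
  rw [← pvcr_g2c T q _ hz]
  have h1 := pvcr_q0 T hT q wQ hQ hQ0
  have e1 : ∑ᶠ d, (wU d + wQ d) * (starRingEnd ℂ) (T.obs q d)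
      = ∑ᶠ d, wU d * (starRingEnd ℂ) (T.obs q d) + ∑ᶠ d, wQ d * (starRingEnd ℂ) (T.obs q d) := by
    rw [← finsum_add_distrib (Set.toFinite _) (Set.toFinite _)]
    exact finsum_congr fun d => by ring
  have e2 : ∑ᶠ d, (wQ d - a * (wU d + wQ d)) * (starRingEnd ℂ) (T.obs q d)
      = ∑ᶠ d, wQ d * (starRingEnd ℂ) (T.obs q d)
        - a * (∑ᶠ d, wU d * (starRingEnd ℂ) (T.obs q d) + ∑ᶠ d, wQ d * (starRingEnd ℂ) (T.obs q d)) := by
    rw [← finsum_add_distrib (Set.toFinite _) (Set.toFinite _), mul_finsum,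
      ← finsum_sub_distrib (Set.toFinite _) (Set.toFinite _)]
    exact finsum_congr fun d => by ring
  rw [e1, e2, h1]
  ring

/-- **G5 = Bessel at the three darts of one face** (⟸ `bessel` of S1: `E ∑_λ |X_λ|² = (1/4) ∑_d |x d|²`; the labels of the tags among `q, nxt q, nxt² q` are (at most one) terms of the sum) -/
theorem pvcr_bessel [Finite V] [Finite D] (hT : T.IsSph) (x : D → ℂ)
    (hx : (∀ d, x (T.nxt d) = pvOm * x d) ∨ (∀ d, x (T.nxt d) = (starRingEnd ℂ) pvOm * x d)) (q : D) :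
    ∫ s, (‖T.lsum s x q‖ ^ 2 + ‖T.lsum s x (T.nxt q)‖ ^ 2 + ‖T.lsum s x (T.nxt (T.nxt q))‖ ^ 2) ∂colLaw V ≤ 1 / 4 * ∑ᶠ d, ‖x d‖ ^ 2 := by
  classical
  have := Fintype.ofFinite V
  have := Fintype.ofFinite D
  have hE : ∫ s, T.foE x Finset.univ s ∂colLaw V = 1 / 4 * ∑ d, ‖x d‖ ^ 2 := by
    rcases hx with hx | hx
    · exact T.pvfo_bessel_sph hT Finset.univ (fun _ _ => Finset.mem_univ _) pvOm_mul_conj PvMap.pvfo_om_ne_one x hx
    · exact T.pvfo_bessel_sph hT Finset.univ (fun _ _ => Finset.mem_univ _) PvMap.pvfo_om_conj_mul PvMap.pvfo_om_conj_ne_one x hx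
  rw [finsum_eq_sum_of_fintype, ← hE]
  refine integral_mono Integrable.of_finite Integrable.of_finite fun s => ?_
  have h0 : ∀ d, ¬ T.Tag s d → ‖T.lsum s x d‖ ^ 2 = 0 := fun d hd => by rw [pvcr_lsum_not_tag T s x hd]; simp
  have h1 : ∀ d, T.Tag s d → ‖T.lsum s x d‖ ^ 2 ≤ T.foE x Finset.univ s := by
    intro d hd
    have e : T.lsum s x d = ∑ d' ∈ T.foCls Finset.univ s d, x d' := by
      unfold PvMap.lsum PvMap.foCls
      exact finsum_cond_eq_sum_of_cond_iff _ (by intro y _; simp)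
    rw [e]
    unfold PvMap.foE
    refine Finset.single_le_sum (f := fun L => ‖∑ d ∈ L, x d‖ ^ 2) (fun _ _ => by positivity) ?_
    unfold PvMap.foLabs
    exact Finset.mem_image_of_mem _ (by simp [hd])
  have hnn := T.pvfo_E_nonneg x Finset.univ s
  show ‖T.lsum s x q‖ ^ 2 + ‖T.lsum s x (T.nxt q)‖ ^ 2 + ‖T.lsum s x (T.nxt (T.nxt q))‖ ^ 2 ≤ T.foE x Finset.univ s
  by_cases t0 : T.Tag s q
  · have t1 : ¬ T.Tag s (T.nxt q) := fun h => T.nxt_ne_self q (T.tag_unique s t0 h (T.sf_nxt q))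
    have t2 : ¬ T.Tag s (T.nxt (T.nxt q)) := fun h => T.nxt2_ne_self q (T.tag_unique s t0 h (T.sf_nxt2 q))
    rw [h0 _ t1, h0 _ t2, add_zero, add_zero]
    exact h1 _ t0
  · rw [h0 _ t0, zero_add]
    by_cases t1 : T.Tag s (T.nxt q)
    · have t2 : ¬ T.Tag s (T.nxt (T.nxt q)) := fun h => T.nxt_ne_self _ (T.tag_unique s t1 h (T.sf_nxt _))
      rw [h0 _ t2, add_zero]
      exact h1 _ t1
    · rw [h0 _ t1, zero_add]
      by_cases t2 : T.Tag s (T.nxt (T.nxt q))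
      · exact h1 _ t2
      · rw [h0 _ t2]; exact hnn

/-- truncation + AM-GM on the finite probability space of the colourings: `N ≤ 3τ` off `B`, so `E N ≤ 3 τ + (δ/2) E N² + P(B) / (2δ)` -/
theorem pvcr_trunc [Finite V] (N : (V → Bool) → ℝ) (hN : ∀ s, 0 ≤ N s) (B : Set (V → Bool)) (τ δ : ℝ) (hτ : 0 ≤ τ) (hδ : 0 < δ)
    (hB : ∀ s, s ∉ B → N s ≤ 3 * τ) :
    ∫ s, N s ∂colLaw V ≤ 3 * τ + δ / 2 * ∫ s, N s ^ 2 ∂colLaw V + (colLaw V).real B / (2 * δ) := by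
  classical
  have hBm : MeasurableSet B := (Set.toFinite _).measurableSet
  have hint : ∀ g : (V → Bool) → ℝ, Integrable g (colLaw V) := fun g => Integrable.of_finite
  have hpt : ∀ s, N s ≤ 3 * τ + δ / 2 * N s ^ 2 + B.indicator (fun _ => (1 : ℝ)) s / (2 * δ) := by
    intro s
    by_cases hs : s ∈ B
    · rw [Set.indicator_of_mem hs]
      have h1 : N s ≤ δ / 2 * N s ^ 2 + 1 / (2 * δ) := by
        have h2 : 0 ≤ (δ * N s - 1) ^ 2 / (2 * δ) := by positivity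
        have h3 : (δ * N s - 1) ^ 2 / (2 * δ) = δ / 2 * N s ^ 2 + 1 / (2 * δ) - N s := by
          field_simp
          ring
        linarith
      linarith
    · rw [Set.indicator_of_notMem hs]
      have := hB s hs
      have h2 : 0 ≤ δ / 2 * N s ^ 2 := by positivity
      simp only [zero_div, add_zero]
      linarith
  calc ∫ s, N s ∂colLaw V ≤ ∫ s, (3 * τ + δ / 2 * N s ^ 2 + B.indicator (fun _ => (1 : ℝ)) s / (2 * δ)) ∂colLaw V :=
        integral_mono (hint _) (hint _) hpt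
    _ = 3 * τ + δ / 2 * ∫ s, N s ^ 2 ∂colLaw V + (colLaw V).real B / (2 * δ) := by
        rw [integral_add (hint _) (hint _), integral_add (hint _) (hint _), integral_const, integral_const_mul, integral_div,
          integral_indicator_const _ hBm]
        simp

/-- the `L¹` bound of the three label sums.
Plan: `N s` = the integrand; `pvcr_trunc` with `B = selBad`; `N² ≤ 3 ∑_k ‖lsum‖²`; `lsum (wQ - a (wU + wQ)) = (1 - a) lsum wQ - a lsum wU` (linearity of `finsum`), `‖x - y‖² ≤ 2‖x‖² + 2‖y‖²` (`pvfo_norm_add_sq`);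
`pvcr_bessel` for `wQ` and for `wU`:   `E N² ≤ 3 (2 |1-a|² (1/4) ∑|wQ|² + 2 |a|² (1/4) ∑|wU|²) ≤ (3/2)(|1-a|² + |a|²) 𝓔`. -/
theorem pvcr_l1 [Finite V] [Finite D] (hT : T.IsSph) (q : D) (wU wQ : D → ℂ) (hU : ∀ d, wU (T.nxt d) = pvOm * wU d)
    (hQ : ∀ d, wQ (T.nxt d) = (starRingEnd ℂ) pvOm * wQ d) (a : ℂ) (τ δ : ℝ) (hτ : 0 ≤ τ) (hδ : 0 < δ) :
    ∫ s, (‖T.lsum s (fun d => wQ d - a * (wU d + wQ d)) q‖ + ‖T.lsum s (fun d => wQ d - a * (wU d + wQ d)) (T.nxt q)‖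
        + ‖T.lsum s (fun d => wQ d - a * (wU d + wQ d)) (T.nxt (T.nxt q))‖) ∂colLaw V
      ≤ 3 * τ + 3 / 4 * δ * (‖1 - a‖ ^ 2 + ‖a‖ ^ 2) * ∑ᶠ d, (‖wU d‖ ^ 2 + ‖wQ d‖ ^ 2)
        + (colLaw V).real (T.selBad (fun d => wQ d - a * (wU d + wQ d)) q τ) / (2 * δ) := by
  classical
  have hint : ∀ g : (V → Bool) → ℝ, Integrable g (colLaw V) := fun g => Integrable.of_finite
  have hl : ∀ (s : V → Bool) (w : D → ℂ) (d₀ : D), T.lsum s w d₀ = ∑ᶠ d, (if T.SameLab s d₀ d then w d else 0) := by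
    intro s w d₀
    unfold PvMap.lsum
    refine finsum_congr fun d => ?_
    rw [finsum_eq_if]
  have hlin : ∀ (s : V → Bool) (d₀ : D), T.lsum s (fun d => wQ d - a * (wU d + wQ d)) d₀
      = (1 - a) * T.lsum s wQ d₀ + (-a) * T.lsum s wU d₀ := by
    intro s d₀
    rw [hl, hl, hl, mul_finsum, mul_finsum, ← finsum_add_distrib (Set.toFinite _) (Set.toFinite _)]
    refine finsum_congr fun d => ?_
    by_cases h : T.SameLab s d₀ d
    · simp only [if_pos h]; ring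
    · simp only [if_neg h]; ring
  have hsq : ∀ (s : V → Bool) (d₀ : D), ‖T.lsum s (fun d => wQ d - a * (wU d + wQ d)) d₀‖ ^ 2
      ≤ 2 * ‖1 - a‖ ^ 2 * ‖T.lsum s wQ d₀‖ ^ 2 + 2 * ‖a‖ ^ 2 * ‖T.lsum s wU d₀‖ ^ 2 := by
    intro s d₀
    rw [hlin]
    refine (PvMap.pvfo_norm_add_sq _ _).trans (le_of_eq ?_)
    rw [norm_mul, norm_mul, norm_neg]
    ring
  have h1 := pvcr_trunc (fun s => ‖T.lsum s (fun d => wQ d - a * (wU d + wQ d)) q‖ + ‖T.lsum s (fun d => wQ d - a * (wU d + wQ d)) (T.nxt q)‖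
        + ‖T.lsum s (fun d => wQ d - a * (wU d + wQ d)) (T.nxt (T.nxt q))‖) (fun s => by positivity)
        (T.selBad (fun d => wQ d - a * (wU d + wQ d)) q τ) τ δ hτ hδ (by
      intro s hs
      have h : ∀ d, T.SF q d → ‖T.lsum s (fun d => wQ d - a * (wU d + wQ d)) d‖ ≤ τ := by
        intro d hd
        by_contra hc
        exact hs ⟨d, hd, not_le.1 hc⟩
      have a0 := h q (Or.inl rfl)
      have a1 := h _ (Or.inr (Or.inl rfl))
      have a2 := h _ (Or.inr (Or.inr rfl))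
      linarith)
  have bQ := pvcr_bessel T hT wQ (Or.inr hQ) q
  have bU := pvcr_bessel T hT wU (Or.inl hU) q
  have hE : ∑ᶠ d, (‖wU d‖ ^ 2 + ‖wQ d‖ ^ 2) = ∑ᶠ d, ‖wU d‖ ^ 2 + ∑ᶠ d, ‖wQ d‖ ^ 2 :=
    finsum_add_distrib (Set.toFinite _) (Set.toFinite _)
  have hU0 : 0 ≤ ∑ᶠ d, ‖wU d‖ ^ 2 := finsum_nonneg fun d => by positivity
  have hQ0 : 0 ≤ ∑ᶠ d, ‖wQ d‖ ^ 2 := finsum_nonneg fun d => by positivity
  have h2 : ∫ s, (‖T.lsum s (fun d => wQ d - a * (wU d + wQ d)) q‖ + ‖T.lsum s (fun d => wQ d - a * (wU d + wQ d)) (T.nxt q)‖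
        + ‖T.lsum s (fun d => wQ d - a * (wU d + wQ d)) (T.nxt (T.nxt q))‖) ^ 2 ∂colLaw V
      ≤ 6 * ‖1 - a‖ ^ 2 * ∫ s, (‖T.lsum s wQ q‖ ^ 2 + ‖T.lsum s wQ (T.nxt q)‖ ^ 2 + ‖T.lsum s wQ (T.nxt (T.nxt q))‖ ^ 2) ∂colLaw V
        + 6 * ‖a‖ ^ 2 * ∫ s, (‖T.lsum s wU q‖ ^ 2 + ‖T.lsum s wU (T.nxt q)‖ ^ 2 + ‖T.lsum s wU (T.nxt (T.nxt q))‖ ^ 2) ∂colLaw V := by
    rw [← integral_const_mul, ← integral_const_mul, ← integral_add (hint _) (hint _)]
    refine integral_mono (hint _) (hint _) fun s => ?_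
    have a0 := hsq s q
    have a1 := hsq s (T.nxt q)
    have a2 := hsq s (T.nxt (T.nxt q))
    simp only
    nlinarith [sq_nonneg (‖T.lsum s (fun d => wQ d - a * (wU d + wQ d)) q‖ - ‖T.lsum s (fun d => wQ d - a * (wU d + wQ d)) (T.nxt q)‖),
      sq_nonneg (‖T.lsum s (fun d => wQ d - a * (wU d + wQ d)) q‖ - ‖T.lsum s (fun d => wQ d - a * (wU d + wQ d)) (T.nxt (T.nxt q))‖),
      sq_nonneg (‖T.lsum s (fun d => wQ d - a * (wU d + wQ d)) (T.nxt q)‖ - ‖T.lsum s (fun d => wQ d - a * (wU d + wQ d)) (T.nxt (T.nxt q))‖)]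
  have p1 : 0 ≤ ‖1 - a‖ ^ 2 := by positivity
  have p2 : 0 ≤ ‖a‖ ^ 2 := by positivity
  have h3 : ∫ s, (‖T.lsum s (fun d => wQ d - a * (wU d + wQ d)) q‖ + ‖T.lsum s (fun d => wQ d - a * (wU d + wQ d)) (T.nxt q)‖
        + ‖T.lsum s (fun d => wQ d - a * (wU d + wQ d)) (T.nxt (T.nxt q))‖) ^ 2 ∂colLaw V
      ≤ 3 / 2 * (‖1 - a‖ ^ 2 + ‖a‖ ^ 2) * ∑ᶠ d, (‖wU d‖ ^ 2 + ‖wQ d‖ ^ 2) := by
    refine h2.trans ?_
    rw [hE]
    have c1 := mul_le_mul_of_nonneg_left bQ p1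
    have c2 := mul_le_mul_of_nonneg_left bU p2
    have c3 := mul_nonneg p1 hU0
    have c4 := mul_nonneg p2 hQ0
    nlinarith
  refine h1.trans ?_
  have h4 := mul_le_mul_of_nonneg_left h3 (by positivity : 0 ≤ δ / 2)
  have e : δ / 2 * (3 / 2 * (‖1 - a‖ ^ 2 + ‖a‖ ^ 2) * ∑ᶠ d, (‖wU d‖ ^ 2 + ‖wQ d‖ ^ 2))
      = 3 / 4 * δ * (‖1 - a‖ ^ 2 + ‖a‖ ^ 2) * ∑ᶠ d, (‖wU d‖ ^ 2 + ‖wQ d‖ ^ 2) := by ring
  rw [e] at h4
  linarith

/-- **G6: the quenched estimate**.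
Plan: `pvcr_id1` / `pvcr_id2`; `‖∫ selX‖ ≤ ∫ ‖selX‖ ≤ ∫ N` (`norm_integral_le_integral_norm`, `‖ω‖ = 1`); `pvcr_l1`; multiply by `4`. -/
theorem pvcr_quench [Finite V] [Finite D] (hT : T.IsSph) (q : D) (wU wQ : D → ℂ) (hU : ∀ d, wU (T.nxt d) = pvOm * wU d)
    (hQ : ∀ d, wQ (T.nxt d) = (starRingEnd ℂ) pvOm * wQ d) (hU0 : wU q = 0) (hQ0 : wQ q = 0) (a : ℂ) (τ δ : ℝ) (hτ : 0 ≤ τ) (hδ : 0 < δ) :
    ‖(1 - a) * ∑ᶠ d, (wU d + wQ d) * T.obs q d‖ ≤ 12 * τ + 3 * δ * (‖1 - a‖ ^ 2 + ‖a‖ ^ 2) * ∑ᶠ d, (‖wU d‖ ^ 2 + ‖wQ d‖ ^ 2)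
        + 2 * (colLaw V).real (T.selBad (fun d => wQ d - a * (wU d + wQ d)) q τ) / δ ∧
    ‖a * ∑ᶠ d, (wU d + wQ d) * (starRingEnd ℂ) (T.obs q d)‖ ≤ 12 * τ + 3 * δ * (‖1 - a‖ ^ 2 + ‖a‖ ^ 2) * ∑ᶠ d, (‖wU d‖ ^ 2 + ‖wQ d‖ ^ 2)
        + 2 * (colLaw V).real (T.selBad (fun d => wQ d - a * (wU d + wQ d)) q τ) / δ := by
  have hint : ∀ g : (V → Bool) → ℝ, Integrable g (colLaw V) := fun g => Integrable.of_finite
  have h1 := pvcr_l1 T hT q wU wQ hU hQ a τ δ hτ hδ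
  have hom : ‖pvOm‖ = 1 := pv82_om_norm
  have homc : ‖(starRingEnd ℂ) pvOm‖ = 1 := by rw [RCLike.norm_conj, hom]
  have e : 4 * (3 * τ + 3 / 4 * δ * (‖1 - a‖ ^ 2 + ‖a‖ ^ 2) * ∑ᶠ d, (‖wU d‖ ^ 2 + ‖wQ d‖ ^ 2)
        + (colLaw V).real (T.selBad (fun d => wQ d - a * (wU d + wQ d)) q τ) / (2 * δ))
      = 12 * τ + 3 * δ * (‖1 - a‖ ^ 2 + ‖a‖ ^ 2) * ∑ᶠ d, (‖wU d‖ ^ 2 + ‖wQ d‖ ^ 2)
        + 2 * (colLaw V).real (T.selBad (fun d => wQ d - a * (wU d + wQ d)) q τ) / δ := by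
    field_simp
    ring
  rw [← e]
  constructor
  · rw [pvcr_id1 T hT q wU wQ hU hQ hU0 a, norm_mul]
    have h4 : ‖(4 : ℂ)‖ = 4 := by simp
    rw [h4]
    refine mul_le_mul_of_nonneg_left (((norm_integral_le_integral_norm _).trans ?_).trans h1) (by norm_num)
    refine integral_mono (hint _) (hint _) fun s => ?_
    unfold PvMap.selX
    refine (norm_add₃_le).trans (le_of_eq ?_)
    rw [norm_mul, norm_mul, hom, homc, one_mul, one_mul]
  · rw [pvcr_id2 T hT q wU wQ hU hQ hQ0 a, norm_neg, norm_mul]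
    have h4 : ‖(4 : ℂ)‖ = 4 := by simp
    rw [h4]
    refine mul_le_mul_of_nonneg_left (((norm_integral_le_integral_norm _).trans ?_).trans h1) (by norm_num)
    refine integral_mono (hint _) (hint _) fun s => ?_
    unfold PvMap.selXc
    refine (norm_add₃_le).trans (le_of_eq ?_)
    rw [norm_mul, norm_mul, hom, homc, one_mul, one_mul]

end quenched

/-! ## 2. the weights of a bulk family -/

section weights

variable {X : Type} (𝔅 : PvBulk X) (Y : Set ℂ) (f : ℂ → ℂ)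

theorem pvcr_emb_nxt (d : 𝔅.D Y) : 𝔅.Emb Y ((𝔅.T Y).nxt d) ↔ 𝔅.Emb Y d := by
  unfold PvBulk.Emb PvMap.tgt PvMap.apex
  rw [(𝔅.T Y).nxt3]
  constructor
  · rintro ⟨a, b, c, h1, h2, h3⟩
    exact ⟨c, a, b, h3, h1, h2⟩
  · rintro ⟨a, b, c, h1, h2, h3⟩
    exact ⟨b, c, a, h2, h3, h1⟩

theorem pvcr_bary_nxt (d : 𝔅.D Y) : (𝔅.T Y).bary (𝔅.pos Y) ((𝔅.T Y).nxt d) = (𝔅.T Y).bary (𝔅.pos Y) d := by
  unfold PvMap.bary PvMap.tgt PvMap.apex
  rw [(𝔅.T Y).nxt3]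
  ring

theorem pvcr_wU_nxt (d : 𝔅.D Y) : 𝔅.wU Y f ((𝔅.T Y).nxt d) = pvOm * 𝔅.wU Y f d := by
  have hu : (𝔅.T Y).upart (𝔅.pos Y) ((𝔅.T Y).nxt d) = pvOm * (𝔅.T Y).upart (𝔅.pos Y) d := by
    unfold PvMap.upart
    rw [(𝔅.T Y).nxt3]
    have e1 := pvOm_mul_conj
    have e2 := pvOm_sq
    linear_combination (-(1 / 3 : ℂ) * (𝔅.T Y).side (𝔅.pos Y) ((𝔅.T Y).nxt d)) * e1
      - (1 / 3 : ℂ) * (𝔅.T Y).side (𝔅.pos Y) ((𝔅.T Y).nxt ((𝔅.T Y).nxt d)) * e2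
  unfold PvBulk.wU
  by_cases h : 𝔅.Emb Y d
  · rw [if_pos h, if_pos ((pvcr_emb_nxt 𝔅 Y d).2 h), pvcr_bary_nxt, hu]
    ring
  · rw [if_neg h, if_neg (fun h' => h ((pvcr_emb_nxt 𝔅 Y d).1 h')), mul_zero]

theorem pvcr_wQ_nxt (d : 𝔅.D Y) : 𝔅.wQ Y f ((𝔅.T Y).nxt d) = (starRingEnd ℂ) pvOm * 𝔅.wQ Y f d := by
  have hu : (𝔅.T Y).qpart (𝔅.pos Y) ((𝔅.T Y).nxt d) = (starRingEnd ℂ) pvOm * (𝔅.T Y).qpart (𝔅.pos Y) d := by
    unfold PvMap.qpart
    rw [(𝔅.T Y).nxt3]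
    have e1 := pvOm_mul_conj
    have e2 := pvOm_conj_sq
    linear_combination (-(1 / 3 : ℂ) * (𝔅.T Y).side (𝔅.pos Y) ((𝔅.T Y).nxt d)) * e1
      - (1 / 3 : ℂ) * (𝔅.T Y).side (𝔅.pos Y) ((𝔅.T Y).nxt ((𝔅.T Y).nxt d)) * e2
  unfold PvBulk.wQ
  by_cases h : 𝔅.Emb Y d
  · rw [if_pos h, if_pos ((pvcr_emb_nxt 𝔅 Y d).2 h), pvcr_bary_nxt, hu]
    ring
  · rw [if_neg h, if_neg (fun h' => h ((pvcr_emb_nxt 𝔅 Y d).1 h')), mul_zero]

theorem pvcr_wV_eq (d : 𝔅.D Y) : 𝔅.wV Y f d = 𝔅.wU Y f d + 𝔅.wQ Y f d := by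
  have hs : (𝔅.T Y).side (𝔅.pos Y) d = (𝔅.T Y).upart (𝔅.pos Y) d + (𝔅.T Y).qpart (𝔅.pos Y) d := by
    have h0 : (𝔅.T Y).side (𝔅.pos Y) d + (𝔅.T Y).side (𝔅.pos Y) ((𝔅.T Y).nxt d) + (𝔅.T Y).side (𝔅.pos Y) ((𝔅.T Y).nxt ((𝔅.T Y).nxt d)) = 0 := by
      unfold PvMap.side PvMap.tgt
      rw [(𝔅.T Y).nxt3]
      ring
    unfold PvMap.upart PvMap.qpart
    have e1 := pvOm_sum
    linear_combination (1 / 3 : ℂ) * h0
      - (1 / 3 : ℂ) * ((𝔅.T Y).side (𝔅.pos Y) ((𝔅.T Y).nxt d) + (𝔅.T Y).side (𝔅.pos Y) ((𝔅.T Y).nxt ((𝔅.T Y).nxt d))) * e1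
  unfold PvBulk.wV PvBulk.wU PvBulk.wQ
  by_cases h : 𝔅.Emb Y d
  · rw [if_pos h, if_pos h, if_pos h, hs]
    ring
  · rw [if_neg h, if_neg h, if_neg h, add_zero]

/-- the closing face is not embedded -/
theorem pvcr_cl_not_emb {q : ∀ Y, 𝔅.D Y} {x : ℂ} {R : ℝ} (h : 𝔅.Gd q x R Y) : ¬ 𝔅.Emb Y (q Y) := by
  rintro ⟨a, b, c, h1, -, -⟩
  obtain ⟨e, he⟩ := h.cl (q Y) (Or.inl rfl)
  rw [h1] at he
  exact absurd he (by simp)

end weights

/-! ## 3. the annealed part -/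

/-- finite orthogonality in the form consumed by `S1/Bessel.lean` -/
theorem pvcr_foinv {V D : Type} (T : PvMap V D) [Finite V] [Finite D] (hT : T.IsSph) : T.FoInv := by
  cases nonempty_fintype V
  exact T.pvfo_inv_of_cnt (T.pvfo_cnt hT)

/-- **A1 (QCOL seam): at a fixed good labelled geometry the colouring of the finitely many vertices of `T Y` is uniform.**   `Bc` = any family of sets of colourings.
Plan (kit of helper261, `PppQ.lean`): `pvqu_cfSites` (the site set does not see the colours; transport the dependent type ONCE, by a lemma generalised over `Y' = Y`), `PvgOk.conf_eq` / `PvgOk.col_iff` (`cfCol` of the site `z` is the bit of index `pvgIdx g z`),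
so `(c, ξ) ↦ col` is the composition of `(c, ξ) : PvIx ⊕ X → Bool` with the INJECTIVE map `v ↦ Sum.map (pvgIdx g) id (lab v)`;   `pvf_colLaw_comp` (`S1/Meas.lean`) + `colLaw (PvIx ⊕ X) ≃ pvCol.prod (colLaw X)`.      Equality holds; only `≤` is used. -/
theorem pvcr_seam {X : Type} [Fintype X] (𝔅 : PvBulk X) (Bc : ∀ Y, Set (𝔅.V Y → Bool)) (g : PvGeoT) (hg : PvgOk g)
    (hfin : Finite (𝔅.V (pvgSites g))) (hinj : Function.Injective (𝔅.lab (pvgSites g))) (hsite : ∀ v p, 𝔅.lab (pvgSites g) v = Sum.inl p → p ∈ pvgSites g) :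
    colLaw (𝔅.V (pvgSites g)) (Bc (pvgSites g))
      ≤ (pvCol.prod (colLaw X)) {p | 𝔅.col (pvConf (pvMerge (g, p.1))) p.2 ∈ Bc (cfSites (pvConf (pvMerge (g, p.1))))} :=
  (pval_quench_eq 𝔅 (fun Y s => s ∈ Bc Y) hg hinj hsite (Set.toFinite _).measurableSet).ge

theorem pvcr_om_norm : ‖pvOm‖ = 1 := by
  have h : ‖pvOm‖ ^ 2 = 1 := by
    have h1 := congrArg norm pvOm_mul_conj
    rw [norm_mul, RCLike.norm_conj, norm_one] at h1
    rw [sq]; exact h1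
  have h0 : 0 ≤ ‖pvOm‖ := norm_nonneg _
  nlinarith

/-- the triple of the positions of the face of `d` -/
noncomputable def PvBulk.crTri {X : Type} (𝔅 : PvBulk X) (Y : Set ℂ) (d : 𝔅.D Y) : ℂ × ℂ × ℂ :=
  (𝔅.pos Y ((𝔅.T Y).src d), 𝔅.pos Y ((𝔅.T Y).tgt d), 𝔅.pos Y ((𝔅.T Y).apex d))

theorem pvcr_eqns_cite2 : True := by
  have := @PvBulk.crTri.eq_1
  trivial

theorem pvcr_upart_le {X : Type} (𝔅 : PvBulk X) (Y : Set ℂ) (d : 𝔅.D Y) :
    ‖(𝔅.T Y).upart (𝔅.pos Y) d‖ ≤ pvmtD (𝔅.crTri Y d) ∧ ‖(𝔅.T Y).qpart (𝔅.pos Y) d‖ ≤ pvmtD (𝔅.crTri Y d) := by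
  set a := 𝔅.pos Y ((𝔅.T Y).src d) with ha
  set b := 𝔅.pos Y ((𝔅.T Y).tgt d) with hb
  set c := 𝔅.pos Y ((𝔅.T Y).apex d) with hc
  have s1 : (𝔅.T Y).side (𝔅.pos Y) d = a - b := rfl
  have s2 : (𝔅.T Y).side (𝔅.pos Y) ((𝔅.T Y).nxt d) = b - c := rfl
  have s3 : (𝔅.T Y).side (𝔅.pos Y) ((𝔅.T Y).nxt ((𝔅.T Y).nxt d)) = c - a := by
    unfold PvMap.side
    rw [(𝔅.T Y).tgt_nxt2]; rfl
  have hD : pvmtD (𝔅.crTri Y d) = max ‖a - b‖ (max ‖b - c‖ ‖c - a‖) := rfl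
  have d1 : ‖a - b‖ ≤ pvmtD (𝔅.crTri Y d) := by rw [hD]; exact le_max_left _ _
  have d2 : ‖b - c‖ ≤ pvmtD (𝔅.crTri Y d) := by rw [hD]; exact (le_max_left _ _).trans (le_max_right _ _)
  have d3 : ‖c - a‖ ≤ pvmtD (𝔅.crTri Y d) := by rw [hD]; exact (le_max_right _ _).trans (le_max_right _ _)
  have hc1 : ‖(starRingEnd ℂ) pvOm‖ = 1 := by rw [RCLike.norm_conj, pvcr_om_norm]
  constructor
  · unfold PvMap.upart
    rw [s1, s2, s3, norm_div]
    have h3 : ‖(3 : ℂ)‖ = 3 := by norm_num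
    rw [h3, div_le_iff₀ (by norm_num)]
    calc ‖a - b + (starRingEnd ℂ) pvOm * (b - c) + pvOm * (c - a)‖ ≤ ‖a - b‖ + ‖(starRingEnd ℂ) pvOm * (b - c)‖ + ‖pvOm * (c - a)‖ := norm_add₃_le
      _ = ‖a - b‖ + ‖b - c‖ + ‖c - a‖ := by rw [norm_mul, norm_mul, hc1, pvcr_om_norm, one_mul, one_mul]
      _ ≤ _ := by linarith
  · unfold PvMap.qpart
    rw [s1, s2, s3, norm_div]
    have h3 : ‖(3 : ℂ)‖ = 3 := by norm_num
    rw [h3, div_le_iff₀ (by norm_num)]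
    calc ‖a - b + pvOm * (b - c) + (starRingEnd ℂ) pvOm * (c - a)‖ ≤ ‖a - b‖ + ‖pvOm * (b - c)‖ + ‖(starRingEnd ℂ) pvOm * (c - a)‖ := norm_add₃_le
      _ = ‖a - b‖ + ‖b - c‖ + ‖c - a‖ := by rw [norm_mul, norm_mul, hc1, pvcr_om_norm, one_mul, one_mul]
      _ ≤ _ := by linarith

/-- an embedded face whose barycentre lies in `ball x R` is a Delaunay triangle attached to the square -/
theorem pvcr_at {X : Type} (𝔅 : PvBulk X) {Y K : Set ℂ} (hok : 𝔅.Ok Y K) (x : ℂ) (R : ℝ) (d : 𝔅.D Y) (he : 𝔅.Emb Y d)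
    (hb : (𝔅.T Y).bary (𝔅.pos Y) d ∈ Metric.ball x R) : PvmtAt Y (pvmSq x R) (𝔅.crTri Y d) := by
  obtain ⟨a, b, c, ha, hb', hc⟩ := he
  have hdel := hok.emb d a b c ha hb' hc
  have e : 𝔅.crTri Y d = (a, b, c) := by
    unfold PvBulk.crTri PvBulk.pos
    rw [ha, hb', hc]; rfl
  have eb : (𝔅.T Y).bary (𝔅.pos Y) d = (a + b + c) / 3 := by
    unfold PvMap.bary PvBulk.pos
    rw [ha, hb', hc]; rfl
  rw [e]
  refine pvmt_at_of_meet hdel ⟨(a + b + c) / 3, ?_, pvmt_ball_sub x R (Metric.ball_subset_closedBall (eb ▸ hb))⟩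
  show (a + b + c) / 3 ∈ convexHull ℝ {a, b, c}
  have h1 : a ∈ convexHull ℝ ({a, b, c} : Set ℂ) := subset_convexHull ℝ _ (by simp)
  have h2 : b ∈ convexHull ℝ ({a, b, c} : Set ℂ) := subset_convexHull ℝ _ (by simp)
  have h3 : c ∈ convexHull ℝ ({a, b, c} : Set ℂ) := subset_convexHull ℝ _ (by simp)
  have hcv := convex_convexHull ℝ ({a, b, c} : Set ℂ)
  have h12 : ((1 / 2 : ℝ) • a + (1 / 2 : ℝ) • b) ∈ convexHull ℝ ({a, b, c} : Set ℂ) := hcv h1 h2 (by norm_num) (by norm_num) (by norm_num)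
  have h123 := hcv h12 h3 (a := 2 / 3) (b := 1 / 3) (by norm_num) (by norm_num) (by norm_num)
  convert h123 using 1
  simp only [Complex.real_smul]
  push_cast
  ring

theorem pvcr_tri_inj {X : Type} (𝔅 : PvBulk X) {Y K : Set ℂ} (hok : 𝔅.Ok Y K) {d d' : 𝔅.D Y} (he : 𝔅.Emb Y d) (he' : 𝔅.Emb Y d')
    (h : 𝔅.crTri Y d = 𝔅.crTri Y d') : d = d' := by
  obtain ⟨a, b, c, ha, hb, hc⟩ := he
  obtain ⟨a', b', c', ha', hb', hc'⟩ := he'
  unfold PvBulk.crTri PvBulk.pos at h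
  rw [ha, hb, hc, ha', hb', hc'] at h
  simp only [Sum.elim_inl, id_eq, Prod.mk.injEq] at h
  obtain ⟨rfl, rfl, rfl⟩ := h
  exact hok.simple d d' (hok.inj (ha.trans ha'.symm)) (hok.inj (hb.trans hb'.symm))

/-- **A2, deterministic half** -/
theorem pvcr_energy_det {X : Type} (𝔅 : PvBulk X) (q : ∀ Y, 𝔅.D Y) (x : ℂ) (R : ℝ) (f : ℂ → ℂ) (M : ℝ) (hM : ∀ z, ‖f z‖ ≤ M)
    (hs : tsupport f ⊆ Metric.ball x R) {ε : ℝ} (hε : 0 < ε) (η : Conf PvPt) (h : 𝔅.Gd q x R (cfSites η)) :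
    ENNReal.ofReal (𝔅.crE f (cfSites η)) ≤ ENNReal.ofReal (2 * M ^ 2) * pvmZS 2 3 3 ε x R η := by
  classical
  set Y := cfSites η with hY
  have := h.finD
  cases nonempty_fintype (𝔅.D Y)
  have hM0 : 0 ≤ M := (norm_nonneg _).trans (hM 0)
  set S : Finset (𝔅.D Y) := Finset.univ.filter (fun d => 𝔅.Emb Y d ∧ f ((𝔅.T Y).bary (𝔅.pos Y) d) ≠ 0) with hS
  have hterm : ∀ d, ‖𝔅.wU Y f d‖ ^ 2 + ‖𝔅.wQ Y f d‖ ^ 2 ≤ if d ∈ S then 2 * M ^ 2 * pvmtD (𝔅.crTri Y d) ^ 2 else 0 := by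
    intro d
    by_cases hd : d ∈ S
    · rw [if_pos hd]
      have hd' := (Finset.mem_filter.1 hd).2
      unfold PvBulk.wU PvBulk.wQ
      rw [if_pos hd'.1, if_pos hd'.1, norm_mul, norm_mul, mul_pow, mul_pow]
      obtain ⟨u1, u2⟩ := pvcr_upart_le 𝔅 Y d
      have f1 : ‖f ((𝔅.T Y).bary (𝔅.pos Y) d)‖ ^ 2 ≤ M ^ 2 := pow_le_pow_left₀ (norm_nonneg _) (hM _) 2
      have g1 : ‖(𝔅.T Y).upart (𝔅.pos Y) d‖ ^ 2 ≤ pvmtD (𝔅.crTri Y d) ^ 2 := pow_le_pow_left₀ (norm_nonneg _) u1 2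
      have g2 : ‖(𝔅.T Y).qpart (𝔅.pos Y) d‖ ^ 2 ≤ pvmtD (𝔅.crTri Y d) ^ 2 := pow_le_pow_left₀ (norm_nonneg _) u2 2
      have k1 := mul_le_mul f1 g1 (by positivity) (by positivity)
      have k2 := mul_le_mul f1 g2 (by positivity) (by positivity)
      linarith
    · rw [if_neg hd]
      have hd' : ¬ (𝔅.Emb Y d ∧ f ((𝔅.T Y).bary (𝔅.pos Y) d) ≠ 0) := fun hh => hd (Finset.mem_filter.2 ⟨Finset.mem_univ _, hh⟩)
      unfold PvBulk.wU PvBulk.wQ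
      by_cases he : 𝔅.Emb Y d
      · have hf0 : f ((𝔅.T Y).bary (𝔅.pos Y) d) = 0 := by
          by_contra hne; exact hd' ⟨he, hne⟩
        rw [if_pos he, if_pos he, hf0]; simp
      · rw [if_neg he, if_neg he]; simp
  have hE : 𝔅.crE f Y ≤ ∑ d ∈ S, 2 * M ^ 2 * pvmtD (𝔅.crTri Y d) ^ 2 := by
    unfold PvBulk.crE
    rw [finsum_eq_sum_of_fintype]
    calc ∑ d, (‖𝔅.wU Y f d‖ ^ 2 + ‖𝔅.wQ Y f d‖ ^ 2) ≤ ∑ d, (if d ∈ S then 2 * M ^ 2 * pvmtD (𝔅.crTri Y d) ^ 2 else 0) :=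
          Finset.sum_le_sum fun d _ => hterm d
      _ = _ := by rw [Finset.sum_ite_mem, Finset.univ_inter]
  have hinj : Set.InjOn (𝔅.crTri Y) (S : Set (𝔅.D Y)) := by
    intro d hd d' hd' hdd
    exact pvcr_tri_inj 𝔅 h.ok (Finset.mem_filter.1 hd).2.1 (Finset.mem_filter.1 hd').2.1 hdd
  have hF : ∀ t ∈ S.image (𝔅.crTri Y), PvmtAt (cfSites η) (pvmSq x R) t := by
    intro t ht
    obtain ⟨d, hd, rfl⟩ := Finset.mem_image.1 ht
    have hd' := (Finset.mem_filter.1 hd).2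
    exact pvcr_at 𝔅 h.ok x R d hd'.1 (hs (subset_tsupport f hd'.2))
  have hZ := pvmt_sum_sq 2 hε x R η (S.image (𝔅.crTri Y)) hF
  rw [Finset.sum_image hinj] at hZ
  calc ENNReal.ofReal (𝔅.crE f Y) ≤ ENNReal.ofReal (∑ d ∈ S, 2 * M ^ 2 * pvmtD (𝔅.crTri Y d) ^ 2) := ENNReal.ofReal_le_ofReal hE
    _ = ∑ d ∈ S, ENNReal.ofReal (2 * M ^ 2) * ENNReal.ofReal (pvmtD (𝔅.crTri Y d) ^ 2) := by
        rw [ENNReal.ofReal_sum_of_nonneg (fun d _ => by positivity)]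
        exact Finset.sum_congr rfl fun d _ => ENNReal.ofReal_mul (by positivity)
    _ = ENNReal.ofReal (2 * M ^ 2) * ∑ d ∈ S, ENNReal.ofReal (pvmtD (𝔅.crTri Y d) ^ 2) := by rw [Finset.mul_sum]
    _ ≤ _ := by gcongr

/-- **A2 (MESH): the energy has a measurable majorant with bounded mean**, uniformly in the bulk family.
Plan: on `Gd` the embedded faces are distinct positively oriented Delaunay triangles of `Y` (`Ok.emb`, `Ok.inj`, `Ok.simple`); `|upart|² + |qpart|² ≤ C diam²`; `f` is bounded and vanishes unless the barycentre lies in `ball x R`;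
`E ∑_{t : z_t ∈ ball x R} diam(t)² ≤ C R²` uniformly in `ε ≤ ε₀` (Lemma 2.3 (iii), `k = 2`). -/
theorem pvcr_energy (x : ℂ) (R : ℝ) (hR : 0 < R) (f : ℂ → ℂ) (hf : ContDiff ℝ ∞ f) (hs : tsupport f ⊆ Metric.ball x R) :
    ∃ C : ℝ, 0 ≤ C ∧ ∃ Ebar : ℝ → PvGeoT → ℝ≥0∞, (∀ ε, Measurable (Ebar ε)) ∧ (∀ᶠ ε in 𝓝[>] (0 : ℝ), ∫⁻ g, Ebar ε g ∂(pvGeo ε) ≤ ENNReal.ofReal C) ∧
      ∀ (ε : ℝ) (X : Type) (𝔅 : PvBulk X) (q : ∀ Y, 𝔅.D Y) (g : PvGeoT), PvgOk g → 𝔅.Gd q x R (pvgSites g) → ENNReal.ofReal (𝔅.crE f (pvgSites g)) ≤ Ebar ε g := by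
  classical
  have hcs : HasCompactSupport f :=
    IsCompact.of_isClosed_subset (isCompact_closedBall x R) (isClosed_tsupport f) (hs.trans Metric.ball_subset_closedBall)
  obtain ⟨M, hM⟩ := hf.continuous.bounded_above_of_compact_support hcs
  have hM0 : 0 ≤ M := (norm_nonneg _).trans (hM 0)
  obtain ⟨K, hK, hmom⟩ := pvmt_mom (p := 1) one_ne_zero 2
  have hmeas : ∀ ε : ℝ, Measurable fun p : PvGeoT × PvColT => pvmZS 2 3 3 ε x R (pvConf (pvMerge p)) := fun ε =>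
    (pvm_ZS_meas 2 3 3 ε x R).comp (measurable_pvConf.comp measurable_pvMerge)
  refine ⟨2 * M ^ 2 * (K * (2 * R) ^ 2), by positivity,
    fun ε g => if 0 < ε then ENNReal.ofReal (2 * M ^ 2) * ∫⁻ c, pvmZS 2 3 3 ε x R (pvConf (pvMerge (g, c))) ∂pvCol else ⊤, ?_, ?_, ?_⟩
  · intro ε
    by_cases hε : 0 < ε
    · simp only [if_pos hε]
      exact (hmeas ε).lintegral_prod_right'.const_mul _
    · simp only [if_neg hε]
      exact measurable_const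
  · have hev : ∀ᶠ ε in 𝓝[>] (0 : ℝ), ε ∈ Set.Ioo (0 : ℝ) R := Ioo_mem_nhdsGT hR
    filter_upwards [hev] with ε hε
    simp only [if_pos hε.1]
    rw [lintegral_const_mul _ (hmeas ε).lintegral_prod_right']
    have e1 : ∫⁻ g, ∫⁻ c, pvmZS 2 3 3 ε x R (pvConf (pvMerge (g, c))) ∂pvCol ∂(pvGeo ε) = ∫⁻ η, pvmZS 2 3 3 ε x R η ∂(pvP ε) := by
      have h0 := pvqu_lintegral ε (f := fun o => pvmZS 2 3 3 ε x R (pvConf o)) ((pvm_ZS_meas 2 3 3 ε x R).comp measurable_pvConf)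
      rw [← h0]
      unfold pvP
      rw [lintegral_map (pvm_ZS_meas 2 3 3 ε x R) measurable_pvConf]
    rw [e1, ENNReal.ofReal_mul (p := 2 * M ^ 2) (q := K * (2 * R) ^ 2) (by positivity)]
    apply mul_le_mul' le_rfl
    have h1 := hmom ε hε.1 (pvP ε) (pv_isPpp ε) x R hR.le
    simp only [pow_one] at h1
    refine h1.trans (ENNReal.ofReal_le_ofReal ?_)
    have e : ε ^ 2 * ((R + ε) / ε) ^ 2 = (R + ε) ^ 2 := by
      have := hε.1.ne'
      field_simp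
    rw [e]
    have h2 : (R + ε) ^ 2 ≤ (2 * R) ^ 2 := pow_le_pow_left₀ (by linarith [hε.1]) (by linarith [hε.2]) 2
    exact mul_le_mul_of_nonneg_left h2 hK
  · intro ε X 𝔅 q g _ hG
    by_cases hε : 0 < ε
    · simp only [if_pos hε]
      have hc : ∀ c : PvColT, ENNReal.ofReal (𝔅.crE f (pvgSites g)) ≤ ENNReal.ofReal (2 * M ^ 2) * pvmZS 2 3 3 ε x R (pvConf (pvMerge (g, c))) := by
        intro c
        have h1 := pvcr_energy_det 𝔅 q x R f M hM hs hε (pvConf (pvMerge (g, c))) (by rw [pvqu_cfSites]; exact hG)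
        rwa [pvqu_cfSites] at h1
      have hm : Measurable fun c : PvColT => pvmZS 2 3 3 ε x R (pvConf (pvMerge (g, c))) := (pvm_ZS_meas 2 3 3 ε x R).comp (pvqu_Qm_meas g)
      rw [← lintegral_const_mul _ hm]
      calc ENNReal.ofReal (𝔅.crE f (pvgSites g)) = ∫⁻ _c, ENNReal.ofReal (𝔅.crE f (pvgSites g)) ∂pvCol := by
            rw [lintegral_const, measure_univ, mul_one]
        _ ≤ _ := lintegral_mono hc
    · simp only [if_neg hε, le_top]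

/-- linearity of the label sums -/
theorem pvcr_lsum_wR {X : Type} (𝔅 : PvBulk X) (Y : Set ℂ) [Finite (𝔅.D Y)] (f : ℂ → ℂ) (a : ℂ) (s : 𝔅.V Y → Bool) (d : 𝔅.D Y) :
    (𝔅.T Y).lsum s (𝔅.wR a Y f) d = (𝔅.T Y).lsum s (𝔅.wQ Y f) d - a * (𝔅.T Y).lsum s (𝔅.wV Y f) d := by
  classical
  have := Fintype.ofFinite (𝔅.D Y)
  unfold PvMap.lsum
  simp only [finsum_eq_if, finsum_eq_sum_of_fintype, Finset.mul_sum, ← Finset.sum_sub_distrib]
  refine Finset.sum_congr rfl fun d' _ => ?_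
  split_ifs
  · unfold PvBulk.wR
    rw [pvcr_wV_eq]
  · ring

/-- **A3**: the selected tag has an extra source vertex, so its label escapes from every ball -/
theorem pvcr_bad {X : Type} (𝔅 : PvBulk X) (q : ∀ Y, 𝔅.D Y) (a x : ℂ) (R : ℝ) (f : ℂ → ℂ) (τ : ℝ) (hτ : 0 ≤ τ) :
    {p : PVSample × (X → Bool) | 𝔅.col (pvConf p.1) p.2 ∈ 𝔅.crBc q a x R f τ (cfSites (pvConf p.1))} ⊆ 𝔅.Bad a x R f τ := by
  rintro p ⟨hG, d, hd, hτd⟩
  have := hG.finD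
  have hne : (𝔅.T (cfSites (pvConf p.1))).lsum (𝔅.col (pvConf p.1) p.2) (𝔅.wR a (cfSites (pvConf p.1)) f) d ≠ 0 := by
    intro h0
    rw [h0, norm_zero] at hτd
    exact absurd hτd (not_lt.2 hτ)
  have htag : (𝔅.T (cfSites (pvConf p.1))).Tag (𝔅.col (pvConf p.1) p.2) d := by
    by_contra hnt
    exact hne (pvcr_lsum_not_tag _ _ _ hnt)
  refine ⟨⟨hG.finV, hG.finD⟩, hG.ok, d, htag, ⟨d, ⟨htag, htag, Relation.ReflTransGen.refl, Relation.ReflTransGen.refl⟩, fun z hz => ?_⟩, ?_⟩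
  · obtain ⟨e, he⟩ := hG.cl d hd
    rw [he] at hz
    exact absurd hz (by simp)
  · rw [← pvcr_lsum_wR]
    exact hτd

/-- **A4: the pointwise (quenched) bound in `ℝ≥0∞`** -/
theorem pvcr_pt {X : Type} (𝔅 : PvBulk X) (q : ∀ Y, 𝔅.D Y) (a x : ℂ) (R : ℝ) (f : ℂ → ℂ) (τ δ : ℝ) (hτ : 0 ≤ τ) (hδ : 0 < δ) (Y : Set ℂ)
    (hY : 𝔅.Gd q x R Y) :
    ‖(1 - a) * 𝔅.crS q x R f Y‖ₑ ≤ ENNReal.ofReal (12 * τ) + ENNReal.ofReal (3 * δ * (‖1 - a‖ ^ 2 + ‖a‖ ^ 2)) * ENNReal.ofReal (𝔅.crE f Y)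
        + ENNReal.ofReal (2 / δ) * colLaw (𝔅.V Y) (𝔅.crBc q a x R f τ Y) ∧
    ‖a * 𝔅.crSc q x R f Y‖ₑ ≤ ENNReal.ofReal (12 * τ) + ENNReal.ofReal (3 * δ * (‖1 - a‖ ^ 2 + ‖a‖ ^ 2)) * ENNReal.ofReal (𝔅.crE f Y)
        + ENNReal.ofReal (2 / δ) * colLaw (𝔅.V Y) (𝔅.crBc q a x R f τ Y) := by
  have := hY.finV
  have := hY.finD
  have hq0 : ¬ 𝔅.Emb Y (q Y) := pvcr_cl_not_emb 𝔅 Y hY
  have hU0 : 𝔅.wU Y f (q Y) = 0 := by unfold PvBulk.wU; rw [if_neg hq0]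
  have hQ0 : 𝔅.wQ Y f (q Y) = 0 := by unfold PvBulk.wQ; rw [if_neg hq0]
  have hQ := pvcr_quench (𝔅.T Y) hY.ok.sph (q Y) (𝔅.wU Y f) (𝔅.wQ Y f) (pvcr_wU_nxt 𝔅 Y f) (pvcr_wQ_nxt 𝔅 Y f) hU0 hQ0 a τ δ hτ hδ
  have eS : 𝔅.crS q x R f Y = ∑ᶠ d, (𝔅.wU Y f d + 𝔅.wQ Y f d) * (𝔅.T Y).obs (q Y) d := by
    unfold PvBulk.crS
    rw [if_pos hY]
    exact finsum_congr fun d => by rw [pvcr_wV_eq]
  have eSc : 𝔅.crSc q x R f Y = ∑ᶠ d, (𝔅.wU Y f d + 𝔅.wQ Y f d) * (starRingEnd ℂ) ((𝔅.T Y).obs (q Y) d) := by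
    unfold PvBulk.crSc
    rw [if_pos hY]
    exact finsum_congr fun d => by rw [pvcr_wV_eq]
  have eB : 𝔅.crBc q a x R f τ Y = (𝔅.T Y).selBad (fun d => 𝔅.wQ Y f d - a * (𝔅.wU Y f d + 𝔅.wQ Y f d)) (q Y) τ := by
    ext s
    exact ⟨fun h => h.2, fun h => ⟨hY, h⟩⟩
  have hE0 : 0 ≤ 𝔅.crE f Y := finsum_nonneg fun d => by positivity
  have hA0 : 0 ≤ 3 * δ * (‖1 - a‖ ^ 2 + ‖a‖ ^ 2) := by positivity
  have key : ENNReal.ofReal (12 * τ + 3 * δ * (‖1 - a‖ ^ 2 + ‖a‖ ^ 2) * ∑ᶠ d, (‖𝔅.wU Y f d‖ ^ 2 + ‖𝔅.wQ Y f d‖ ^ 2)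
        + 2 * (colLaw (𝔅.V Y)).real ((𝔅.T Y).selBad (fun d => 𝔅.wQ Y f d - a * (𝔅.wU Y f d + 𝔅.wQ Y f d)) (q Y) τ) / δ)
      = ENNReal.ofReal (12 * τ) + ENNReal.ofReal (3 * δ * (‖1 - a‖ ^ 2 + ‖a‖ ^ 2)) * ENNReal.ofReal (𝔅.crE f Y)
        + ENNReal.ofReal (2 / δ) * colLaw (𝔅.V Y) (𝔅.crBc q a x R f τ Y) := by
    have eE : ∑ᶠ d, (‖𝔅.wU Y f d‖ ^ 2 + ‖𝔅.wQ Y f d‖ ^ 2) = 𝔅.crE f Y := rfl
    rw [eE]
    have hp0 : 0 ≤ (colLaw (𝔅.V Y)).real ((𝔅.T Y).selBad (fun d => 𝔅.wQ Y f d - a * (𝔅.wU Y f d + 𝔅.wQ Y f d)) (q Y) τ) := measureReal_nonneg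
    rw [ENNReal.ofReal_add (add_nonneg (by positivity) (mul_nonneg hA0 hE0)) (by positivity), ENNReal.ofReal_add (by positivity) (mul_nonneg hA0 hE0),
      ENNReal.ofReal_mul hA0, eB]
    congr 1
    rw [show 2 * (colLaw (𝔅.V Y)).real ((𝔅.T Y).selBad (fun d => 𝔅.wQ Y f d - a * (𝔅.wU Y f d + 𝔅.wQ Y f d)) (q Y) τ) / δ
        = 2 / δ * (colLaw (𝔅.V Y)).real ((𝔅.T Y).selBad (fun d => 𝔅.wQ Y f d - a * (𝔅.wU Y f d + 𝔅.wQ Y f d)) (q Y) τ) by ring,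
      ENNReal.ofReal_mul (by positivity), ofReal_measureReal]
  rw [← key, eS, eSc]
  constructor
  · rw [← ofReal_norm]
    exact ENNReal.ofReal_le_ofReal hQ.1
  · rw [← ofReal_norm]
    exact ENNReal.ofReal_le_ofReal hQ.2

/-- **A5: the majorant at one geometry** -/
theorem pvcr_maj {X : Type} [Fintype X] (𝔅 : PvBulk X) (q : ∀ Y, 𝔅.D Y) (a x : ℂ) (R : ℝ) (f : ℂ → ℂ) (τ δ : ℝ) (hτ : 0 ≤ τ) (hδ : 0 < δ) (g : PvGeoT) (hg : PvgOk g)
    (E b : ℝ≥0∞) (hE : 𝔅.Gd q x R (pvgSites g) → ENNReal.ofReal (𝔅.crE f (pvgSites g)) ≤ E)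
    (hb : (pvCol.prod (colLaw X)) {p | (pvMerge (g, p.1), p.2) ∈ 𝔅.Bad a x R f τ} ≤ b) :
    ‖(1 - a) * 𝔅.crS q x R f (pvgSites g)‖ₑ ≤ ENNReal.ofReal (12 * τ) + ENNReal.ofReal (3 * δ * (‖1 - a‖ ^ 2 + ‖a‖ ^ 2)) * E + ENNReal.ofReal (2 / δ) * b ∧
    ‖a * 𝔅.crSc q x R f (pvgSites g)‖ₑ ≤ ENNReal.ofReal (12 * τ) + ENNReal.ofReal (3 * δ * (‖1 - a‖ ^ 2 + ‖a‖ ^ 2)) * E + ENNReal.ofReal (2 / δ) * b := by
  by_cases hY : 𝔅.Gd q x R (pvgSites g)
  · have h1 := pvcr_pt 𝔅 q a x R f τ δ hτ hδ (pvgSites g) hY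
    have h2 : colLaw (𝔅.V (pvgSites g)) (𝔅.crBc q a x R f τ (pvgSites g)) ≤ b :=
      (pvcr_seam 𝔅 (𝔅.crBc q a x R f τ) g hg hY.finV hY.ok.inj hY.ok.site).trans
        ((measure_mono fun p hp => @pvcr_bad X 𝔅 q a x R f τ hτ (pvMerge (g, p.1), p.2) hp).trans hb)
    have h3 : ENNReal.ofReal (12 * τ) + ENNReal.ofReal (3 * δ * (‖1 - a‖ ^ 2 + ‖a‖ ^ 2)) * ENNReal.ofReal (𝔅.crE f (pvgSites g))
        + ENNReal.ofReal (2 / δ) * colLaw (𝔅.V (pvgSites g)) (𝔅.crBc q a x R f τ (pvgSites g))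
        ≤ ENNReal.ofReal (12 * τ) + ENNReal.ofReal (3 * δ * (‖1 - a‖ ^ 2 + ‖a‖ ^ 2)) * E + ENNReal.ofReal (2 / δ) * b := by
      gcongr
      exact hE hY
    exact ⟨h1.1.trans h3, h1.2.trans h3⟩
  · simp only [PvBulk.crS, PvBulk.crSc, if_neg hY, mul_zero, enorm_zero, zero_le, and_self]

/-- the `ε`-`δ` bookkeeping, model free: the countable infimum over `τ = δ = 1/(k+1)` of the majorants is a measurable majorant with mean `→ 0` -/
theorem pvcr_lim {Ω : Type} [MeasurableSpace Ω] (μ : ℕ → Measure Ω) [∀ n, IsProbabilityMeasure (μ n)] (E : ℕ → Ω → ℝ≥0∞) (b : ℕ → ℕ → Ω → ℝ≥0∞) (A C : ℝ)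
    (hA : 0 ≤ A) (hC : 0 ≤ C) (hEm : ∀ n, Measurable (E n)) (hbm : ∀ k n, Measurable (b k n)) (hE : ∀ᶠ n in atTop, ∫⁻ o, E n o ∂μ n ≤ ENNReal.ofReal C)
    (hb : ∀ k, Tendsto (fun n => ∫⁻ o, b k n o ∂μ n) atTop (𝓝 0)) :
    (∀ n, Measurable fun o => ⨅ k : ℕ, (ENNReal.ofReal (12 * (1 / ((k : ℝ) + 1))) + ENNReal.ofReal (3 * (1 / ((k : ℝ) + 1)) * A) * E n o
        + ENNReal.ofReal (2 / (1 / ((k : ℝ) + 1))) * b k n o)) ∧
    Tendsto (fun n => ∫⁻ o, ⨅ k : ℕ, (ENNReal.ofReal (12 * (1 / ((k : ℝ) + 1))) + ENNReal.ofReal (3 * (1 / ((k : ℝ) + 1)) * A) * E n o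
        + ENNReal.ofReal (2 / (1 / ((k : ℝ) + 1))) * b k n o) ∂μ n) atTop (𝓝 0) := by
  have hmk : ∀ (n k : ℕ), Measurable fun o => (ENNReal.ofReal (12 * (1 / ((k : ℝ) + 1))) + ENNReal.ofReal (3 * (1 / ((k : ℝ) + 1)) * A) * E n o
        + ENNReal.ofReal (2 / (1 / ((k : ℝ) + 1))) * b k n o) := fun n k =>
    (measurable_const.add ((hEm n).const_mul _)).add ((hbm k n).const_mul _)
  refine ⟨fun n => Measurable.iInf fun k => hmk n k, ?_⟩
  have hr : Tendsto (fun k : ℕ => 1 / ((k : ℝ) + 1)) atTop (𝓝 0) := tendsto_one_div_add_atTop_nhds_zero_nat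
  have ha : Tendsto (fun k : ℕ => ENNReal.ofReal (12 * (1 / ((k : ℝ) + 1)))) atTop (𝓝 0) := by
    have := ENNReal.tendsto_ofReal (hr.const_mul 12)
    rwa [mul_zero, ENNReal.ofReal_zero] at this
  have he : Tendsto (fun k : ℕ => ENNReal.ofReal (3 * (1 / ((k : ℝ) + 1)) * A) * ENNReal.ofReal C) atTop (𝓝 0) := by
    have h1 := ENNReal.tendsto_ofReal ((hr.const_mul 3).mul_const A)
    rw [mul_zero, zero_mul, ENNReal.ofReal_zero] at h1
    have h2 := ENNReal.Tendsto.mul_const (b := ENNReal.ofReal C) h1 (Or.inr ENNReal.ofReal_ne_top)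
    rwa [zero_mul] at h2
  have hc := ha.add he
  rw [add_zero] at hc
  rw [ENNReal.tendsto_nhds_zero]
  intro ε hε
  have hε2 : 0 < ε / 2 := ENNReal.half_pos hε.ne'
  obtain ⟨K, hK⟩ := ((tendsto_order.1 hc).2 (ε / 2) hε2).exists
  have hd : Tendsto (fun n => ENNReal.ofReal (2 / (1 / ((K : ℝ) + 1))) * ∫⁻ o, b K n o ∂μ n) atTop (𝓝 0) := by
    have := ENNReal.Tendsto.const_mul (a := ENNReal.ofReal (2 / (1 / ((K : ℝ) + 1)))) (hb K) (Or.inr ENNReal.ofReal_ne_top)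
    rwa [mul_zero] at this
  filter_upwards [hE, (tendsto_order.1 hd).2 (ε / 2) hε2] with n hn1 hn2
  calc ∫⁻ o, ⨅ k : ℕ, (ENNReal.ofReal (12 * (1 / ((k : ℝ) + 1))) + ENNReal.ofReal (3 * (1 / ((k : ℝ) + 1)) * A) * E n o
        + ENNReal.ofReal (2 / (1 / ((k : ℝ) + 1))) * b k n o) ∂μ n
      ≤ ∫⁻ o, (ENNReal.ofReal (12 * (1 / ((K : ℝ) + 1))) + ENNReal.ofReal (3 * (1 / ((K : ℝ) + 1)) * A) * E n o
        + ENNReal.ofReal (2 / (1 / ((K : ℝ) + 1))) * b K n o) ∂μ n := lintegral_mono fun o => iInf_le _ K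
    _ = ENNReal.ofReal (12 * (1 / ((K : ℝ) + 1))) + ENNReal.ofReal (3 * (1 / ((K : ℝ) + 1)) * A) * ∫⁻ o, E n o ∂μ n
        + ENNReal.ofReal (2 / (1 / ((K : ℝ) + 1))) * ∫⁻ o, b K n o ∂μ n := by
        rw [lintegral_add_right _ ((hbm K n).const_mul _), lintegral_add_right _ ((hEm n).const_mul _), lintegral_const, measure_univ, mul_one,
          lintegral_const_mul _ (hEm n), lintegral_const_mul _ (hbm K n)]
    _ ≤ (ENNReal.ofReal (12 * (1 / ((K : ℝ) + 1))) + ENNReal.ofReal (3 * (1 / ((K : ℝ) + 1)) * A) * ENNReal.ofReal C) + ε / 2 := by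
        gcongr
    _ ≤ ε / 2 + ε / 2 := by gcongr
    _ = ε := ENNReal.add_halves ε

/-- **MAIN THEOREM OF BOX:CR** -/
theorem pvcr_main (h : PvTransport) : PvCR := by
  intro εs h0 h1
  obtain ⟨φ, hφ, a, ha⟩ := h εs h0 h1
  refine ⟨φ, hφ, a, ?_⟩
  intro X _ 𝔅 q x R f hR hf hs
  obtain ⟨C, hC, Ebar, hEm, hEi, hE⟩ := pvcr_energy x R hR f hf hs
  have hlim : Tendsto (fun n => εs (φ n)) atTop (𝓝[>] (0 : ℝ)) :=
    tendsto_nhdsWithin_iff.2 ⟨h1.comp hφ.tendsto_atTop, Eventually.of_forall fun n => h0 _⟩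
  have hA : 0 ≤ ‖1 - a‖ ^ 2 + ‖a‖ ^ 2 := by positivity
  have hk : ∀ k : ℕ, 0 < 1 / ((k : ℝ) + 1) := fun k => by positivity
  choose b hbm hbb hbl using fun k : ℕ => ha X 𝔅 x R f hR hf hs (1 / ((k : ℝ) + 1)) (hk k)
  obtain ⟨m1, m2⟩ := pvcr_lim (fun n => pvGeo (εs (φ n))) (fun n => Ebar (εs (φ n))) b _ C hA hC (fun n => hEm _) hbm (hlim.eventually hEi) hbl
  refine ⟨_, m1, fun n g hg => ?_, m2⟩
  constructor
  · refine le_iInf fun k => ?_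
    exact (pvcr_maj 𝔅 q a x R f _ _ (hk k).le (hk k) g hg _ _ (hE _ X 𝔅 q g hg) (hbb k n g)).1
  · refine le_iInf fun k => ?_
    exact (pvcr_maj 𝔅 q a x R f _ _ (hk k).le (hk k) g hg _ _ (hE _ X 𝔅 q g hg) (hbb k n g)).2

/-! ## 4. the form consumed by OBS (`PvoCR.cr` of `Obs/Abs.lean`, for `S` or for `S.conj`) -/

/-- transfer of a majorant on the labelled geometries to the law of the sample.
Plan: `cfSites (pvConf o) = pvgSites (pvGeoOf o)` (`pvqu_cfSites`, `pvqu_merge_of`);   `lintegral_mono_ae` with `pvqu_ae_geo ε (pvqu_ok_ae ε)`;   `∫⁻ o, u (pvGeoOf o) ∂pvLaw ε = ∫⁻ g, u g ∂pvGeo ε` (`lintegral_map hu measurable_pvGeoOf`, `pvqu_law_geo`). -/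
theorem pvcr_to_law (ε : ℝ) (G : Set ℂ → ℂ) (u : PvGeoT → ℝ≥0∞) (hu : Measurable u) (h : ∀ g, PvgOk g → ‖G (pvgSites g)‖ₑ ≤ u g) :
    ∫⁻ o, ‖G (cfSites (pvConf o))‖ₑ ∂pvLaw ε ≤ ∫⁻ g, u g ∂(pvGeo ε) := by
  have e : ∫⁻ g, u g ∂(pvGeo ε) = ∫⁻ o, u (pvGeoOf o) ∂pvLaw ε := by
    rw [← pvqu_law_geo, lintegral_map hu measurable_pvGeoOf]
  rw [e]
  refine lintegral_mono_ae ?_
  filter_upwards [pvqu_ae_geo ε (pvqu_ok_ae ε)] with o ho
  have e2 : cfSites (pvConf o) = pvgSites (pvGeoOf o) := by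
    rw [← pvqu_cfSites (pvGeoOf o) (pvColOf o), pvqu_merge_of]
  rw [e2]
  exact h _ ho

/-- **THE ALTERNATIVE consumed by `pvo_main`**: along the universal subsequence either `E|S| → 0` for all families, balls and tests (`a ≠ 1`), or `E|S̄| → 0` for all of them (`a = 1`).
Plan: `by_cases a = 1`.   `a ≠ 1`: `‖S‖ₑ = ‖1 - a‖ₑ⁻¹ * ‖(1 - a) S‖ₑ`, `pvcr_to_law` with the majorant `‖1 - a‖ₑ⁻¹ * u n`, `lintegral_const_mul`, `ENNReal.Tendsto.const_mul`, squeeze.   `a = 1`: `‖a S̄‖ₑ = ‖S̄‖ₑ`. -/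
theorem pvcr_split (h : PvCR) (εs : ℕ → ℝ) (h0 : ∀ n, 0 < εs n) (h1 : Tendsto εs atTop (𝓝 0)) :
    ∃ φ : ℕ → ℕ, StrictMono φ ∧
      ((∀ (X : Type) [Fintype X] (𝔅 : PvBulk X) (q : ∀ Y, 𝔅.D Y) (x : ℂ) (R : ℝ) (f : ℂ → ℂ), 0 < R → ContDiff ℝ ∞ f → tsupport f ⊆ Metric.ball x R →
          Tendsto (fun n => ∫⁻ o, ‖𝔅.crS q x R f (cfSites (pvConf o))‖ₑ ∂pvLaw (εs (φ n))) atTop (𝓝 0)) ∨
       (∀ (X : Type) [Fintype X] (𝔅 : PvBulk X) (q : ∀ Y, 𝔅.D Y) (x : ℂ) (R : ℝ) (f : ℂ → ℂ), 0 < R → ContDiff ℝ ∞ f → tsupport f ⊆ Metric.ball x R →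
          Tendsto (fun n => ∫⁻ o, ‖𝔅.crSc q x R f (cfSites (pvConf o))‖ₑ ∂pvLaw (εs (φ n))) atTop (𝓝 0))) := by
  obtain ⟨φ, hφ, a, ha⟩ := h εs h0 h1
  refine ⟨φ, hφ, ?_⟩
  by_cases h1a : a = 1
  · right
    intro X _ 𝔅 q x R f hR hf hs
    obtain ⟨u, hum, hub, hul⟩ := ha X 𝔅 q x R f hR hf hs
    refine tendsto_of_tendsto_of_tendsto_of_le_of_le tendsto_const_nhds hul (fun _ => zero_le) fun n => ?_
    refine pvcr_to_law _ (fun Y => 𝔅.crSc q x R f Y) (u n) (hum n) fun g hg => ?_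
    have := (hub n g hg).2
    rwa [h1a, one_mul] at this
  · left
    intro X _ 𝔅 q x R f hR hf hs
    obtain ⟨u, hum, hub, hul⟩ := ha X 𝔅 q x R f hR hf hs
    have hne : (1 - a) ≠ 0 := sub_ne_zero.2 (Ne.symm h1a)
    have hc0 : ‖1 - a‖ₑ ≠ 0 := enorm_ne_zero.2 hne
    have hct : ‖1 - a‖ₑ ≠ ⊤ := enorm_ne_top
    have hl2 : Tendsto (fun n => ‖1 - a‖ₑ⁻¹ * ∫⁻ g, u n g ∂(pvGeo (εs (φ n)))) atTop (𝓝 0) := by
      have := ENNReal.Tendsto.const_mul (a := ‖1 - a‖ₑ⁻¹) hul (Or.inr (ENNReal.inv_ne_top.2 hc0))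
      rwa [mul_zero] at this
    refine tendsto_of_tendsto_of_tendsto_of_le_of_le tendsto_const_nhds hl2 (fun _ => zero_le) fun n => ?_
    show ∫⁻ o, ‖𝔅.crS q x R f (cfSites (pvConf o))‖ₑ ∂pvLaw (εs (φ n)) ≤ ‖1 - a‖ₑ⁻¹ * ∫⁻ g, u n g ∂(pvGeo (εs (φ n)))
    rw [← lintegral_const_mul _ (hum n)]
    refine pvcr_to_law _ (fun Y => 𝔅.crS q x R f Y) (fun g => ‖1 - a‖ₑ⁻¹ * u n g) ((hum n).const_mul _) fun g hg => ?_
    have h3 := (hub n g hg).1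
    rw [enorm_mul] at h3
    calc ‖𝔅.crS q x R f (pvgSites g)‖ₑ = ‖1 - a‖ₑ⁻¹ * (‖1 - a‖ₑ * ‖𝔅.crS q x R f (pvgSites g)‖ₑ) := by
          rw [← mul_assoc, ENNReal.inv_mul_cancel hc0 hct, one_mul]
      _ ≤ ‖1 - a‖ₑ⁻¹ * u n g := by gcongr

/-- the Bochner form: whatever the measurability of the family, the mean of `S` tends to `0` as soon as `E|S| → 0` (`norm_integral_le_lintegral_norm`) -/
theorem pvcr_bochner (μ : ℕ → Measure PVSample) (G : ℕ → PVSample → ℂ) (h : Tendsto (fun n => ∫⁻ o, ‖G n o‖ₑ ∂μ n) atTop (𝓝 0)) :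
    Tendsto (fun n => ∫ o, G n o ∂μ n) atTop (𝓝 0) := by
  have h1 : Tendsto (fun n => (∫⁻ o, ‖G n o‖ₑ ∂μ n).toReal) atTop (𝓝 0) := by
    have := (ENNReal.tendsto_toReal ENNReal.zero_ne_top).comp h
    rw [ENNReal.toReal_zero] at this
    exact this
  refine squeeze_zero_norm (fun n => ?_) h1
  have h2 := norm_integral_le_lintegral_norm (μ := μ n) (G n)
  simpa only [ofReal_norm] using h2

end Claimed.Agent.R289
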