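import Claimed.Agent.R289.Cr.Inst
import Claimed.Agent.R289.Rsw.Exports
import Claimed.Agent.R289.Vor.Cov

/-!
# Row 289 (S0537, Cardy for Poisson-Voronoi), box CR, part CR.ARMB = THE BRIDGE `LM.2`: FROM THE ARM EXPORTS TO `L9ExitArm`      (owner helper200; sub-head helper161; prefix `l9a_`, `L9a`)

Blueprint: `origin/helper7:notes/R289/LM_7.md`, LM.2 ("a reaching rim visiting `B(y,s)`, `|y-x| ≤ 2R`, contains a monochromatic path of physical sites from `B(y,s)` to distance `R` of `y`").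

* `L9aVC η κ A B`     monochromatic VERTEX chain of colour `κ` (consecutive cells touch) from a site in `A` to a site in `B`.      `κ = true`: `PvVC η univ A B` (`Defs/Top`).
* `l9a_vc_prob`       annealed one-arm decay for chains of BOTH colours (from `pvre_arm1_vc` of helper54 + colour flip), outer measure.
* `l9a_step`          one edge of a bulk family issued from a site of `K` is a Delaunay edge: the other end is a site and the two cells touch.
* `l9a_chain`         DETERMINISTIC: a rim cut outside `B(x,4R)` which visits `B(y,t)`, `t < R`, `|y-x| ≤ 2R`, carries a chain from `closedBall y t` to `{b | R ≤ |b-y|}`.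
* `l9a_law_le`        upper probability (`l9Up`) of an event of the configuration alone.
* **`l9a_arm1`**      the field `arm1` of `L9Arm`, for EVERY bulk family, ball, with one exponent.
* `L9aExitRet c`      the contract left to ARM / S2 (field `arm2`), `l9a_exit : L9aExitRet c → L9ExitArm c`.
-/

set_option autoImplicit false

namespace Claimed.Agent.R289

open MeasureTheory ProbabilityTheory Set Filter Topology Claims.C0465
open scoped ENNReal

/-- monochromatic vertex chain of colour `κ` from a site in `A` to a site in `B` -/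
def L9aVC (η : Conf PvPt) (κ : Bool) (A B : Set ℂ) : Prop :=
  ∃ u v : ℂ, u ∈ A ∧ v ∈ B ∧ (u, κ) ∈ η.pts ∧ Relation.ReflTransGen (fun a b => (b, κ) ∈ η.pts ∧ (cfCell η a ∩ cfCell η b).Nonempty) u v

theorem l9ab_eqns_cite : True := by
  have := @L9aVC.eq_1
  trivial

/-! ## 1. probability of a chain -/

theorem l9a_vc_black {η : Conf PvPt} {A B : Set ℂ} (h : L9aVC η true A B) : PvVC η univ A B := by
  obtain ⟨u, v, hu, hv, hb, hc⟩ := h
  exact ⟨u, v, hu, hv, ⟨hb, mem_univ _⟩, Relation.ReflTransGen.mono (fun a b hab => ⟨⟨hab.1, mem_univ _⟩, hab.2⟩) u v hc⟩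

theorem l9a_flip_mem (η : Conf PvPt) (v : ℂ) (c : Bool) : (v, c) ∈ (cfFlip η).pts ↔ (v, !c) ∈ η.pts := by
  have := vorc_col_flip η c
  exact Set.ext_iff.1 this v

theorem l9a_vc_white {η : Conf PvPt} {A B : Set ℂ} (h : L9aVC η false A B) : L9aVC (cfFlip η) true A B := by
  obtain ⟨u, v, hu, hv, hb, hc⟩ := h
  refine ⟨u, v, hu, hv, (l9a_flip_mem η u true).2 hb, Relation.ReflTransGen.mono (fun a b hab => ⟨(l9a_flip_mem η b true).2 hab.1, ?_⟩) u v hc⟩
  have e : ∀ w, cfCell (cfFlip η) w = cfCell η w := fun w => vorc_cfCell_flip η w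
  rw [e, e]
  exact hab.2

/-- **annealed one-arm decay for monochromatic vertex chains of both colours** (outer measure) -/
theorem l9a_vc_prob : ∃ C a : ℝ, 0 < C ∧ 0 < a ∧ ∀ ε : ℝ, 0 < ε → ∀ t r : ℝ, ε ≤ t → t ≤ r → ∀ cx cy : ℝ,
    pvP ε {η | ∃ κ, L9aVC η κ (rswRect (cx - t) (cx + t) (cy - t) (cy + t)) {b | ¬ (cx - r < b.re ∧ b.re < cx + r ∧ cy - r < b.im ∧ b.im < cy + r)}}
      ≤ ENNReal.ofReal (2 * C * (t / r) ^ a) := by
  obtain ⟨C, a, hC, ha, h⟩ := pvre_arm1_vc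
  refine ⟨C, a, hC, ha, fun ε hε t r h1 h2 cx cy => ?_⟩
  set A := rswRect (cx - t) (cx + t) (cy - t) (cy + t) with hA
  set B := {b : ℂ | ¬ (cx - r < b.re ∧ b.re < cx + r ∧ cy - r < b.im ∧ b.im < cy + r)} with hB
  have h0 := h ε hε t r h1 h2 cx cy univ
  have hsub : {η | ∃ κ, L9aVC η κ A B} ⊆ {η | PvVC η univ A B} ∪ cfFlip ⁻¹' {η | PvVC η univ A B} := by
    rintro η ⟨κ, hκ⟩
    cases κ with
    | true => exact Or.inl (l9a_vc_black hκ)
    | false => exact Or.inr (l9a_vc_black (l9a_vc_white hκ))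
  have ht : 0 < t := lt_of_lt_of_le hε h1
  have hnn : 0 ≤ C * (t / r) ^ a := by
    have : 0 < r := lt_of_lt_of_le ht h2
    positivity
  calc pvP ε {η | ∃ κ, L9aVC η κ A B} ≤ pvP ε ({η | PvVC η univ A B} ∪ cfFlip ⁻¹' {η | PvVC η univ A B}) := measure_mono hsub
    _ ≤ pvP ε {η | PvVC η univ A B} + pvP ε (cfFlip ⁻¹' {η | PvVC η univ A B}) := measure_union_le _ _
    _ = pvP ε {η | PvVC η univ A B} + pvP ε {η | PvVC η univ A B} := by rw [pvr_flip_apply]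
    _ ≤ ENNReal.ofReal (C * (t / r) ^ a) + ENNReal.ofReal (C * (t / r) ^ a) := add_le_add h0 h0
    _ = ENNReal.ofReal (2 * C * (t / r) ^ a) := by
        rw [← ENNReal.ofReal_add hnn hnn]
        congr 1
        ring

/-! ## 2. the deterministic extraction -/

section det

variable {X : Type} (𝔅 : PvBulk X)

/-- a site with colour `κ` -/
theorem l9a_col_mem {η : Conf PvPt} {b : ℂ} (hb : b ∈ cfSites η) {κ : Bool} (h : cfCol η b = κ) : (b, κ) ∈ η.pts := by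
  classical
  obtain ⟨⟨b', c'⟩, hp, rfl⟩ := hb
  unfold cfCol at h
  cases κ with
  | true => exact of_decide_eq_true h
  | false =>
    have h1 : ¬ ((b', true) ∈ η.pts) := of_decide_eq_false h
    cases c' with
    | true => exact absurd hp h1
    | false => exact hp

/-- one edge issued from a site of `K` -/
theorem l9a_step {Y K : Set ℂ} (hOk : 𝔅.Ok Y K) {d : 𝔅.D Y} {a : ℂ} (ha : 𝔅.lab Y ((𝔅.T Y).src d) = Sum.inl a) (haK : a ∈ K) :
    ∃ b : ℂ, 𝔅.lab Y ((𝔅.T Y).tgt d) = Sum.inl b ∧ b ∈ Y ∧ (vorCell Y a ∩ vorCell Y b).Nonempty := by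
  obtain ⟨b, c, hb, -, hT⟩ := hOk.del d a ha haK
  exact ⟨b, hb, (del_tri_adj hT).1.2.1, (del_tri_adj hT).1.2.2.2⟩

/-- **the chain carried by a reaching rim**, abstract colours -/
theorem l9a_chain0 {Y : Set ℂ} {s : 𝔅.V Y → Bool} {x y : ℂ} {R t : ℝ} (hR : 0 < R) (ht : t < R) (hy : ‖y - x‖ ≤ 2 * R)
    (hOk : 𝔅.Ok Y (Metric.closedBall x (6 * R))) (c : (𝔅.T Y).Cyc) (hrim : c.IsRim s)
    (hfar : 4 * R ≤ ‖𝔅.posF Y (x + 7 * R) ((𝔅.T Y).src (c.e 0)) - x‖) {k : ℕ} (hk : k ≤ c.n)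
    (hkt : ‖𝔅.posF Y (x + 7 * R) ((𝔅.T Y).src (c.e k)) - y‖ ≤ t) :
    ∃ (κ : Bool) (u v : ℂ), ‖u - y‖ ≤ t ∧ R ≤ ‖v - y‖ ∧ (∃ w, 𝔅.lab Y w = Sum.inl u ∧ s w = κ) ∧
      Relation.ReflTransGen (fun a b => (∃ w, 𝔅.lab Y w = Sum.inl b ∧ s w = κ) ∧ (vorCell Y a ∩ vorCell Y b).Nonempty) u v := by
  obtain ⟨zi, hzi⟩ : ∃ zi : ℂ, zi = x + 7 * R := ⟨_, rfl⟩
  rw [← hzi] at hfar hkt
  obtain ⟨p, hp⟩ : ∃ p : ℕ → ℂ, ∀ i, p i = 𝔅.posF Y zi ((𝔅.T Y).src (c.e i)) := ⟨_, fun _ => rfl⟩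
  rw [← hp] at hfar hkt
  obtain ⟨κ, hκ⟩ : ∃ κ : Bool, κ = s ((𝔅.T Y).src (c.e k)) := ⟨_, rfl⟩
  have hcol : ∀ i, s ((𝔅.T Y).src (c.e i)) = κ := fun i => hκ ▸ pl_rim_col hrim i k
  -- an extra vertex is far from `y`
  have hzfar : 5 * R ≤ ‖zi - y‖ := by
    have e : zi - y = (7 * R : ℂ) - (y - x) := by rw [hzi]; ring
    have h7 : ‖(7 * R : ℂ)‖ = 7 * R := by
      rw [norm_mul, Complex.norm_real, Real.norm_of_nonneg hR.le]
      norm_num
    have := norm_sub_norm_le (7 * R : ℂ) (y - x)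
    rw [e]
    linarith
  have hpl : ∀ i b, 𝔅.lab Y ((𝔅.T Y).src (c.e i)) = Sum.inl b → p i = b := by
    intro i b hb
    rw [hp, PvBulk.posF, hb]
    rfl
  have hsite : ∀ i, ‖p i - y‖ < 5 * R → 𝔅.lab Y ((𝔅.T Y).src (c.e i)) = Sum.inl (p i) := by
    intro i hi
    rcases hl : 𝔅.lab Y ((𝔅.T Y).src (c.e i)) with b | e
    · rw [hpl i b hl]
    · have : p i = zi := by
        rw [hp, PvBulk.posF, hl]
        rfl
      rw [this] at hi
      linarith
  -- the induction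
  have key : ∀ m, (∀ i, k ≤ i → i < k + m → ‖p i - y‖ < R) →
      ∃ b, 𝔅.lab Y ((𝔅.T Y).src (c.e (k + m))) = Sum.inl b ∧
        Relation.ReflTransGen (fun a b => (∃ w, 𝔅.lab Y w = Sum.inl b ∧ s w = κ) ∧ (vorCell Y a ∩ vorCell Y b).Nonempty) (p k) b := by
    intro m
    induction m with
    | zero => exact fun _ => ⟨p k, hsite k (by linarith), Relation.ReflTransGen.refl⟩
    | succ m ih =>
      intro hin
      obtain ⟨a, ha, hch⟩ := ih fun i h1 h2 => hin i h1 (by omega)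
      have hpa : p (k + m) = a := hpl _ _ ha
      have hain : ‖a - y‖ < R := hpa ▸ hin (k + m) (by omega) (by omega)
      have haK : a ∈ Metric.closedBall x (6 * R) := by
        rw [Metric.mem_closedBall, dist_eq_norm]
        have := norm_add_le (a - y) (y - x)
        rw [sub_add_sub_cancel] at this
        linarith
      obtain ⟨b, hb, -, hne⟩ := l9a_step 𝔅 hOk ha haK
      have hb' : 𝔅.lab Y ((𝔅.T Y).src (c.e (k + (m + 1)))) = Sum.inl b := by
        rw [← add_assoc, ← c.chain (k + m)]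
        exact hb
      exact ⟨b, hb', hch.tail ⟨⟨_, hb', hcol _⟩, hne⟩⟩
  -- the first exit
  have hex : ∃ m, R ≤ ‖p (k + m) - y‖ := by
    refine ⟨c.n - k, ?_⟩
    have e1 : k + (c.n - k) = 0 + c.n := by omega
    have e2 : p (k + (c.n - k)) = p 0 := by rw [hp, hp, e1, c.per]
    rw [e2]
    have := norm_add_le (p 0 - y) (y - x)
    rw [sub_add_sub_cancel] at this
    linarith
  classical
  obtain ⟨b, hb, hch⟩ := key (Nat.find hex) fun i h1 h2 => by
    have := Nat.find_min hex (m := i - k) (by omega)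
    rw [show k + (i - k) = i by omega] at this
    exact not_le.1 this
  have hpb : p (k + Nat.find hex) = b := hpl _ _ hb
  refine ⟨κ, p k, b, hkt, ?_, ⟨_, hsite k (by linarith), hcol k⟩, hch⟩
  rw [← hpb]
  exact Nat.find_spec hex

/-- **the chain carried by a reaching rim** -/
theorem l9a_chain {η : Conf PvPt} {ξ : X → Bool} {x y : ℂ} {R t : ℝ} (hR : 0 < R) (ht : t < R) (hy : ‖y - x‖ ≤ 2 * R)
    (hOk : 𝔅.Ok (cfSites η) (Metric.closedBall x (6 * R))) {P : PvbRim} (hP : P ∈ 𝔅.rimsAt (cfSites η) (𝔅.col η ξ) x R) (hv : PvbVisits P y t) :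
    ∃ κ, L9aVC η κ (Metric.closedBall y t) {b | R ≤ ‖b - y‖} := by
  obtain ⟨c, hrim, hfar, rfl⟩ := hP
  obtain ⟨k, hk, hkt⟩ := hv
  obtain ⟨κ, u, v, hu, hv, hw, hch⟩ := l9a_chain0 𝔅 hR ht hy hOk c hrim hfar hk hkt
  have hcolpt : ∀ b, (∃ w, 𝔅.lab (cfSites η) w = Sum.inl b ∧ 𝔅.col η ξ w = κ) → (b, κ) ∈ η.pts := by
    rintro b ⟨w, hb, hc⟩
    refine l9a_col_mem (hOk.site _ _ hb) ?_
    rw [PvBulk.col, hb] at hc
    exact hc
  refine ⟨κ, u, v, ?_, hv, hcolpt u hw, Relation.ReflTransGen.mono (fun a b hab => ⟨hcolpt b hab.1, ?_⟩) u v hch⟩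
  · rw [Metric.mem_closedBall, dist_eq_norm]
    exact hu
  · rw [cfCell_eq_vor, cfCell_eq_vor]
    exact hab.2

end det

/-! ## 3. outer measure glue -/

/-- an event of the configuration alone -/
theorem l9a_law_le (X : Type) (ε : ℝ) (S : Set (Conf PvPt)) : (l9Up X ε).P {w | pvConf (l9Sm w).1 ∈ S} ≤ pvP ε S :=
  (l9_up_le X ε (pvConf ⁻¹' S)).trans (Measure.le_map_apply measurable_pvConf.aemeasurable S)

theorem L9aVC.mono {η : Conf PvPt} {κ : Bool} {A B A' B' : Set ℂ} (h : L9aVC η κ A B) (hA : A ⊆ A') (hB : B ⊆ B') : L9aVC η κ A' B' := by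
  obtain ⟨u, v, hu, hv, hb, hc⟩ := h
  exact ⟨u, v, hA hu, hB hv, hb, hc⟩

/-- the event of `arm1` is carried by a chain -/
theorem l9a_visit_sub {X : Type} (𝔅 : PvBulk X) {x y : ℂ} {R s : ℝ} (hR : 0 < R) (hs : s ≤ R / 2) (hy : ‖y - x‖ ≤ 2 * R) :
    {o : PVSample × (X → Bool) | ∃ P ∈ 𝔅.rims x R o, PvbVisits P y s} ⊆
      {o | pvConf o.1 ∈ {η | ∃ κ, L9aVC η κ (rswRect (y.re - s) (y.re + s) (y.im - s) (y.im + s))
        {b | ¬ (y.re - R / 2 < b.re ∧ b.re < y.re + R / 2 ∧ y.im - R / 2 < b.im ∧ b.im < y.im + R / 2)}}} := by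
  rintro o ⟨P, ⟨-, hOk, hP⟩, hv⟩
  obtain ⟨κ, hκ⟩ := l9a_chain 𝔅 hR (by linarith) hy hOk hP hv
  refine ⟨κ, hκ.mono ?_ ?_⟩
  · intro z hz
    rw [Metric.mem_closedBall, dist_eq_norm] at hz
    have h1 := Complex.abs_re_le_norm (z - y)
    have h2 := Complex.abs_im_le_norm (z - y)
    rw [Complex.sub_re, abs_le] at h1
    rw [Complex.sub_im, abs_le] at h2
    exact ⟨by linarith [h1.1], by linarith [h1.2], by linarith [h2.1], by linarith [h2.2]⟩
  · rintro b hb ⟨h1, h2, h3, h4⟩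
    have hb' : R ≤ ‖b - y‖ := hb
    have h5 := Complex.norm_le_abs_re_add_abs_im (b - y)
    rw [Complex.sub_re, Complex.sub_im] at h5
    have h6 : |b.re - y.re| < R / 2 := abs_lt.2 ⟨by linarith, by linarith⟩
    have h7 : |b.im - y.im| < R / 2 := abs_lt.2 ⟨by linarith, by linarith⟩
    linarith

/-- **the field `arm1` of `L9Arm`**: one exponent, one constant for all bulk families and balls -/
theorem l9a_arm1 : ∃ a : ℝ, 0 < a ∧ ∀ c : ℝ, 0 < c → c ≤ a → ∃ C1 : ℝ, 0 < C1 ∧ ∀ εs : ℕ → ℝ, (∀ n, 0 < εs n) → Tendsto εs atTop (𝓝 0) →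
    ∀ (X : Type) (𝔅 : PvBulk X) (x : ℂ) (R : ℝ), 0 < R → ∀ (y : ℂ) (s : ℝ), ‖y - x‖ ≤ 2 * R → 0 < s →
      ∀ᶠ n in atTop, ((l9Up X (εs n)).P {w | ∃ P ∈ 𝔅.rims x R (l9Sm w), PvbVisits P y s}).toReal ≤ C1 * (s / R) ^ c := by
  obtain ⟨C, a, hC, ha, h⟩ := l9a_vc_prob
  refine ⟨a, ha, fun c hc hca => ⟨2 * C * 2 ^ a + 2 ^ c, by positivity, fun εs h0 hε X 𝔅 x R hR y s hy hs => ?_⟩⟩
  have hu : 0 < s / R := by positivity
  have hpc : 0 ≤ (s / R) ^ c := by positivity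
  rcases le_or_gt s (R / 2) with hsR | hsR
  · have hev : ∀ᶠ n in atTop, εs n ≤ s := (hε.eventually (gt_mem_nhds hs)).mono fun n hn => le_of_lt hn
    filter_upwards [hev] with n hn
    have h1 := ((l9Up X (εs n)).P_mono fun w hw => l9a_visit_sub 𝔅 hR hsR hy (a := l9Sm w) hw).trans
      ((l9a_law_le X (εs n) _).trans (h (εs n) (h0 n) s (R / 2) hn hsR y.re y.im))
    have hnn : 0 ≤ 2 * C * (s / (R / 2)) ^ a := by positivity
    refine (ENNReal.toReal_le_of_le_ofReal hnn h1).trans ?_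
    have e1 : s / (R / 2) = 2 * (s / R) := by
      field_simp
    have hu1 : s / R ≤ 1 := by
      rw [div_le_one hR]
      linarith
    have e2 : (s / R) ^ a ≤ (s / R) ^ c := Real.rpow_le_rpow_of_exponent_ge hu hu1 hca
    rw [e1, Real.mul_rpow (by norm_num) hu.le]
    have h2a : (0 : ℝ) < 2 ^ a := by positivity
    have h2c : (0 : ℝ) < 2 ^ c := by positivity
    calc 2 * C * (2 ^ a * (s / R) ^ a) = 2 * C * 2 ^ a * (s / R) ^ a := by ring
      _ ≤ 2 * C * 2 ^ a * (s / R) ^ c := mul_le_mul_of_nonneg_left e2 (by positivity)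
      _ ≤ (2 * C * 2 ^ a + 2 ^ c) * (s / R) ^ c := mul_le_mul_of_nonneg_right (by linarith) hpc
  · refine Eventually.of_forall fun n => ?_
    have h1 : (l9Up X (εs n)).P {w | ∃ P ∈ 𝔅.rims x R (l9Sm w), PvbVisits P y s} ≤ ENNReal.ofReal 1 := by
      rw [ENNReal.ofReal_one]
      exact PvUp.P_le_one _ _
    refine (ENNReal.toReal_le_of_le_ofReal zero_le_one h1).trans ?_
    have h2 : 1 ≤ (2 * (s / R)) ^ c := by
      refine Real.one_le_rpow ?_ hc.le
      rw [← mul_div_assoc, le_div_iff₀ hR]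
      linarith
    rw [Real.mul_rpow (by norm_num) hu.le] at h2
    have h2a : (0 : ℝ) < 2 ^ a := by positivity
    calc (1 : ℝ) ≤ 2 ^ c * (s / R) ^ c := h2
      _ ≤ (2 * C * 2 ^ a + 2 ^ c) * (s / R) ^ c := mul_le_mul_of_nonneg_right (by nlinarith) hpc

/-! ## 4. the exit -/

/-- **the contract left to ARM / S2**: near return × one arm for the reaching rims of every bulk family (field `arm2` of `L9Arm`) -/
def L9aExitRet (c : ℝ) : Prop :=
  ∀ εs : ℕ → ℝ, (∀ n, 0 < εs n) → Tendsto εs atTop (𝓝 0) → ∀ (X : Type) [Fintype X] (𝔅 : PvBulk X) (x : ℂ) (R : ℝ), 0 < R →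
    ∃ C2 : ℝ, ∀ (y : ℂ) (s S : ℝ), ‖y - x‖ ≤ 2 * R → 0 < s → s ≤ S → S ≤ R → ∀ᶠ n in atTop,
      ((l9Up X (εs n)).P {w | ∃ P ∈ 𝔅.rims x R (l9Sm w), PvbNearRet P y s S}).toReal ≤ C2 * (s / S) ^ (2 + c) * (S / R) ^ c

theorem l9ab_eqns_cite2 : True := by
  have := @L9aExitRet.eq_1
  trivial

/-- **EXIT of CR.ARMB** -/
theorem l9a_exit : ∃ a : ℝ, 0 < a ∧ ∀ c : ℝ, 0 < c → c ≤ a → L9aExitRet c → L9ExitArm c := by
  obtain ⟨a, ha, h⟩ := l9a_arm1
  refine ⟨a, ha, fun c hc hca hret εs h0 hε X _ 𝔅 x R hR => ?_⟩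
  obtain ⟨C1, hC1, h1⟩ := h c hc hca
  obtain ⟨C2, h2⟩ := hret εs h0 hε X 𝔅 x R hR
  refine ⟨⟨max C1 (25 * max C2 0), fun y s hy hs => ?_, fun t s S B ht hts _ hsS hSR hB => ?_⟩⟩
  · filter_upwards [h1 εs h0 hε X 𝔅 x R hR y s hy hs] with n hn
    have : 0 ≤ (s / R) ^ c := by positivity
    exact hn.trans (mul_le_mul_of_nonneg_right (le_max_left _ _) this)
  · exact pvb_arm2_of_pt_le (Pr := fun n => l9Up X (εs n)) (rims := fun _ w => 𝔅.rims x R (l9Sm w)) (le_max_right _ _) h2 t s S B ht hts hsS hSR hB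

end Claimed.Agent.R289
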