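-- KEEP
import Claimed.Agent.R289.S6b.Main

/-!
# Row 289 (S0537), BOX:CR, block CR.GRID: THE DETERMINISTIC FIELDS OF `PvbIn` (interface of `R289/S6b/Main.lean`).      Prefix `pvcg_`, `pvcg`.
Architect + prover: helper68.      0 sorry, no probability.

1. integer windows `pvcgWin h z ρ` (all `p : ℤ × ℤ` with `|p_i h - z_i| ≤ ρ`), their cardinality;
2. the grid of candidate centres `pvcgGr x R h = hℤ² ∩ closedBall x (2R)`, the level-`0` squares `pvcgBox x R h`, the constants `pvcgCG R`, `pvcgKp 𝔐`: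
   `pvcg_Gr_card`, `pvcg_Box_card`, `pvcg_Box_cov`, `pvcg_Box_in`, `pvcg_pat_card` = the fields `Gr_card Box_card Box_cov Box_in pat_card`, for every `0 < h ≤ R / 4`;
3. the scales: `h m → 0`, `r m = (h m)^(1-κ)`, `Err m = (h m)^2`, `0 < κ < min 1 (c/2)`: `pvcg_par`, `pvcg_lim1`, `pvcg_lim2` = the fields `par lim1 lim2`; the standard choice `pvcgH R m = R / 4 / 2^m`.
Consumer: `R289/Cr/Inst.lean` (helper161).
-/

set_option autoImplicit false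

namespace Claimed.Agent.R289

open MeasureTheory Filter Topology Finset

/-! ## 1. integer windows -/

/-- the grid point of index `p` -/
noncomputable def pvcgPt (h : ℝ) (p : ℤ × ℤ) : ℂ := ⟨(p.1 : ℝ) * h, (p.2 : ℝ) * h⟩

/-- all indices `p` with `|p_i h - z_i| ≤ ρ` -/
noncomputable def pvcgWin (h : ℝ) (z : ℂ) (ρ : ℝ) : Finset (ℤ × ℤ) :=
  Finset.Icc ⌈(z.re - ρ) / h⌉ ⌊(z.re + ρ) / h⌋ ×ˢ Finset.Icc ⌈(z.im - ρ) / h⌉ ⌊(z.im + ρ) / h⌋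

theorem pvcg_Icc_mem {h : ℝ} (h0 : 0 < h) (a ρ : ℝ) (n : ℤ) : n ∈ Finset.Icc ⌈(a - ρ) / h⌉ ⌊(a + ρ) / h⌋ ↔ |(n : ℝ) * h - a| ≤ ρ := by
  rw [Finset.mem_Icc, Int.ceil_le, Int.le_floor, div_le_iff₀ h0, le_div_iff₀ h0, abs_le]
  constructor
  · rintro ⟨h1, h2⟩
    constructor <;> linarith
  · rintro ⟨h1, h2⟩
    constructor <;> linarith

theorem pvcg_win_mem {h : ℝ} (h0 : 0 < h) (z : ℂ) (ρ : ℝ) (p : ℤ × ℤ) :
    p ∈ pvcgWin h z ρ ↔ |(p.1 : ℝ) * h - z.re| ≤ ρ ∧ |(p.2 : ℝ) * h - z.im| ≤ ρ := by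
  unfold pvcgWin
  rw [mem_product, pvcg_Icc_mem h0, pvcg_Icc_mem h0]

theorem pvcg_win_of_norm {h : ℝ} (h0 : 0 < h) {z : ℂ} {ρ : ℝ} {p : ℤ × ℤ} (hp : ‖pvcgPt h p - z‖ ≤ ρ) : p ∈ pvcgWin h z ρ := by
  rw [pvcg_win_mem h0]
  have h1 := Complex.abs_re_le_norm (pvcgPt h p - z)
  have h2 := Complex.abs_im_le_norm (pvcgPt h p - z)
  simp only [pvcgPt, Complex.sub_re, Complex.sub_im] at h1 h2
  exact ⟨h1.trans hp, h2.trans hp⟩

theorem pvcg_Icc_card (a b : ℝ) (hab : 0 ≤ b - a + 1) : ((Finset.Icc ⌈a⌉ ⌊b⌋).card : ℝ) ≤ b - a + 1 := by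
  rw [Int.card_Icc]
  have h1 : (((⌊b⌋ + 1 - ⌈a⌉).toNat : ℤ) : ℝ) = ((max (⌊b⌋ + 1 - ⌈a⌉) 0 : ℤ) : ℝ) := by rw [Int.toNat_eq_max]
  have h2 : (((⌊b⌋ + 1 - ⌈a⌉).toNat : ℕ) : ℝ) = (((⌊b⌋ + 1 - ⌈a⌉).toNat : ℤ) : ℝ) := by push_cast; rfl
  rw [h2, h1]
  push_cast
  refine max_le ?_ hab
  have := Int.floor_le b
  have := Int.le_ceil a
  linarith

theorem pvcg_win_card {h : ℝ} (h0 : 0 < h) (z : ℂ) {ρ : ℝ} (hρ : 0 ≤ ρ) : ((pvcgWin h z ρ).card : ℝ) ≤ (2 * ρ / h + 1) ^ 2 := by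
  unfold pvcgWin
  rw [card_product, Nat.cast_mul, sq]
  have key : ∀ a : ℝ, ((Finset.Icc ⌈(a - ρ) / h⌉ ⌊(a + ρ) / h⌋).card : ℝ) ≤ 2 * ρ / h + 1 := by
    intro a
    have e : (a + ρ) / h - (a - ρ) / h + 1 = 2 * ρ / h + 1 := by
      field_simp
      ring
    have := pvcg_Icc_card ((a - ρ) / h) ((a + ρ) / h) (by rw [e]; positivity)
    rwa [e] at this
  exact mul_le_mul (key _) (key _) (Nat.cast_nonneg _) (by positivity)

/-! ## 2. grid, boxes, patterns -/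

open Classical in
/-- the candidate centres: `hℤ² ∩ closedBall x (2R)` -/
noncomputable def pvcgGr (x : ℂ) (R h : ℝ) : Finset ℂ :=
  ((pvcgWin h x (2 * R)).filter (fun p => ‖pvcgPt h p - x‖ ≤ 2 * R)).image (pvcgPt h)

open Classical in
/-- the level-`0` squares -/
noncomputable def pvcgBox (x : ℂ) (R h : ℝ) : Finset (ℤ × ℤ) :=
  (pvcgWin h x (2 * R)).filter (fun p => ‖pvbSqCtr h p - x‖ ≤ 3 * R / 2 + h)

/-- the constant of `Gr_card`, `Box_card` -/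
noncomputable def pvcgCG (R : ℝ) : ℝ := 25 * R ^ 2

/-- the constant of `pat_card` -/
noncomputable def pvcgKp {τ : Type} [Fintype τ] (𝔐 : PvbMenu τ) : ℕ := 2 ^ (⌈2 * 𝔐.L + 1⌉₊ ^ 2 * Fintype.card τ)

theorem pvcg_Gr_mem {x : ℂ} {R h : ℝ} (h0 : 0 < h) (g : ℂ) : g ∈ pvcgGr x R h ↔ (∃ p : ℤ × ℤ, pvcgPt h p = g) ∧ ‖g - x‖ ≤ 2 * R := by
  unfold pvcgGr
  simp only [mem_image, mem_filter]
  constructor
  · rintro ⟨p, ⟨_, hp⟩, rfl⟩
    exact ⟨⟨p, rfl⟩, hp⟩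
  · rintro ⟨⟨p, rfl⟩, hp⟩
    exact ⟨p, ⟨pvcg_win_of_norm h0 hp, hp⟩, rfl⟩

theorem pvcg_win_le {x : ℂ} {R h : ℝ} (h0 : 0 < h) (hR : h ≤ R) : ((pvcgWin h x (2 * R)).card : ℝ) ≤ pvcgCG R * h ^ (-2 : ℝ) := by
  have hR0 : 0 < R := h0.trans_le hR
  refine (pvcg_win_card h0 x (by positivity)).trans ?_
  rw [Real.rpow_neg h0.le, Real.rpow_two, pvcgCG]
  have h1 : 2 * (2 * R) / h + 1 ≤ 5 * R / h := by
    rw [div_add_one h0.ne']
    exact div_le_div_of_nonneg_right (by linarith) h0.le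
  calc (2 * (2 * R) / h + 1) ^ 2 ≤ (5 * R / h) ^ 2 := pow_le_pow_left₀ (by positivity) h1 2
    _ = 25 * R ^ 2 * (h ^ 2)⁻¹ := by
      field_simp
      ring

/-- field `Gr_card` -/
theorem pvcg_Gr_card {x : ℂ} {R h : ℝ} (h0 : 0 < h) (hR : h ≤ R) : ((pvcgGr x R h).card : ℝ) ≤ pvcgCG R * h ^ (-2 : ℝ) := by
  refine le_trans ?_ (pvcg_win_le (x := x) h0 hR)
  exact Nat.cast_le.2 (card_image_le.trans (card_le_card (filter_subset _ _)))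

/-- field `Box_card` -/
theorem pvcg_Box_card {x : ℂ} {R h : ℝ} (h0 : 0 < h) (hR : h ≤ R) : ((pvcgBox x R h).card : ℝ) ≤ pvcgCG R * h ^ (-2 : ℝ) := by
  refine le_trans ?_ (pvcg_win_le (x := x) h0 hR)
  exact Nat.cast_le.2 (card_le_card (filter_subset _ _))

theorem pvcg_ctr_pt (h : ℝ) (p : ℤ × ℤ) : pvbSqCtr h p = pvcgPt h p + ⟨h / 2, h / 2⟩ := by
  apply Complex.ext <;> simp [pvbSqCtr, pvcgPt] <;> ring

theorem pvcg_half_norm {h : ℝ} (h0 : 0 < h) : ‖(⟨h / 2, h / 2⟩ : ℂ)‖ ≤ h := by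
  refine (Complex.norm_le_abs_re_add_abs_im _).trans ?_
  simp only [abs_of_pos (half_pos h0)]
  linarith

/-- field `Box_cov` -/
theorem pvcg_Box_cov {x : ℂ} {R h : ℝ} (h0 : 0 < h) (hR : h ≤ R / 4) (w : ℂ) (hw : ‖w - x‖ < 3 * R / 2) : pvbSqIdx h w ∈ pvcgBox x R h := by
  have h1 := pvb_sq_dist h0 w
  have h2 : ‖pvbSqCtr h (pvbSqIdx h w) - x‖ ≤ 3 * R / 2 + h := by
    have e : pvbSqCtr h (pvbSqIdx h w) - x = -(w - pvbSqCtr h (pvbSqIdx h w)) + (w - x) := by ring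
    rw [e]
    refine (norm_add_le _ _).trans ?_
    rw [norm_neg]
    linarith
  refine mem_filter.2 ⟨pvcg_win_of_norm h0 ?_, h2⟩
  have e : pvcgPt h (pvbSqIdx h w) - x = (pvbSqCtr h (pvbSqIdx h w) - x) - ⟨h / 2, h / 2⟩ := by
    rw [pvcg_ctr_pt]
    ring
  rw [e]
  refine (norm_sub_le _ _).trans ?_
  have := pvcg_half_norm h0
  linarith

/-- field `Box_in` -/
theorem pvcg_Box_in {x : ℂ} {R h : ℝ} (h0 : 0 < h) (hR : h ≤ R / 4) (w : ℂ) (hw : pvbSqIdx h w ∈ pvcgBox x R h) : ‖w - x‖ ≤ 2 * R := by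
  have h1 := pvb_sq_dist h0 w
  have h2 := (mem_filter.1 hw).2
  have e : w - x = (w - pvbSqCtr h (pvbSqIdx h w)) + (pvbSqCtr h (pvbSqIdx h w) - x) := by ring
  rw [e]
  refine (norm_add_le _ _).trans ?_
  linarith

/-- field `pat_card` -/
theorem pvcg_pat_card {τ : Type} [Fintype τ] (𝔐 : PvbMenu τ) {x : ℂ} {R h : ℝ} (h0 : 0 < h) (p : ℤ × ℤ) (S : Finset (Finset (ℂ × τ)))
    (hS : ∀ q ∈ S, ∃ w, pvbSqIdx h w = p ∧ pvbCutPat 𝔐 h (pvcgGr x R h) w = q) : S.card ≤ pvcgKp 𝔐 := by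
  classical
  by_cases hτ : Nonempty τ
  · obtain ⟨t0⟩ := hτ
    have hL : 0 < 𝔐.L := by
      have := 𝔐.mc_le_L t0
      have := 𝔐.mc_gt t0
      linarith
    set Near : Finset (ℂ × τ) := ((pvcgWin h (pvbSqCtr h p) (𝔐.L * h)).image (pvcgPt h)) ×ˢ (Finset.univ : Finset τ) with hNear
    have hsub : S ⊆ Near.powerset := by
      intro q hq
      obtain ⟨w, hw, rfl⟩ := hS q hq
      rw [mem_powerset]
      rintro ⟨g, t⟩ hgt
      obtain ⟨hg, hcut⟩ := mem_filter.1 hgt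
      have hgG : g ∈ pvcgGr x R h := (mem_product.1 hg).1
      obtain ⟨⟨p', rfl⟩, _⟩ := (pvcg_Gr_mem h0 g).1 hgG
      refine mem_product.2 ⟨mem_image.2 ⟨p', pvcg_win_of_norm h0 ?_, rfl⟩, mem_univ _⟩
      have h1 := pvb_sq_dist h0 w
      rw [hw] at h1
      have h2 : ‖w - pvcgPt h p'‖ ≤ 𝔐.mc t * h := hcut
      have h3 := 𝔐.mc_le_L t
      have e : pvcgPt h p' - pvbSqCtr h p = -(w - pvcgPt h p') + (w - pvbSqCtr h p) := by ring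
      rw [e]
      refine (norm_add_le _ _).trans ?_
      rw [norm_neg]
      nlinarith
    have hwin : (pvcgWin h (pvbSqCtr h p) (𝔐.L * h)).card ≤ ⌈2 * 𝔐.L + 1⌉₊ ^ 2 := by
      have h1 := pvcg_win_card h0 (pvbSqCtr h p) (ρ := 𝔐.L * h) (by positivity)
      have e : 2 * (𝔐.L * h) / h + 1 = 2 * 𝔐.L + 1 := by
        field_simp
      rw [e] at h1
      have h2 : (2 * 𝔐.L + 1) ^ 2 ≤ ((⌈2 * 𝔐.L + 1⌉₊ : ℝ)) ^ 2 := pow_le_pow_left₀ (by positivity) (Nat.le_ceil _) 2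
      have h3 : ((pvcgWin h (pvbSqCtr h p) (𝔐.L * h)).card : ℝ) ≤ ((⌈2 * 𝔐.L + 1⌉₊ ^ 2 : ℕ) : ℝ) := by
        push_cast
        exact h1.trans h2
      exact Nat.cast_le.1 h3
    have hNc : Near.card ≤ ⌈2 * 𝔐.L + 1⌉₊ ^ 2 * Fintype.card τ := by
      rw [hNear, card_product, card_univ]
      exact Nat.mul_le_mul_right _ (card_image_le.trans hwin)
    calc S.card ≤ Near.powerset.card := card_le_card hsub
      _ = 2 ^ Near.card := card_powerset _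
      _ ≤ pvcgKp 𝔐 := Nat.pow_le_pow_right (by norm_num) hNc
  · -- no type: only the empty pattern
    have hsub : S ⊆ {∅} := by
      intro q hq
      obtain ⟨w, _, rfl⟩ := hS q hq
      rw [mem_singleton, eq_empty_iff_forall_notMem]
      rintro ⟨g, t⟩ _
      exact hτ ⟨t⟩
    calc S.card ≤ ({∅} : Finset (Finset (ℂ × τ))).card := card_le_card hsub
      _ = 1 := card_singleton _
      _ ≤ pvcgKp 𝔐 := Nat.one_le_two_pow

/-! ## 3. scales -/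

theorem pvcg_rpow_tendsto {h : ℕ → ℝ} (hlim : Tendsto h atTop (𝓝 0)) {e : ℝ} (he : 0 < e) :
    Tendsto (fun m => h m ^ e) atTop (𝓝 0) := by
  have := (Real.continuousAt_rpow_const 0 e (Or.inr he.le)).tendsto.comp hlim
  rw [Real.zero_rpow he.ne'] at this
  exact this

/-- field `par` for `r m = (h m)^(1-κ)` -/
theorem pvcg_par {h : ℕ → ℝ} (h0 : ∀ m, 0 < h m) (hlim : Tendsto h atTop (𝓝 0)) {κ : ℝ} (hκ0 : 0 < κ) (hκ1 : κ < 1) (L : ℝ) {R : ℝ} (hR : 0 < R) :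
    ∀ᶠ m in atTop, 4 * L * h m ≤ h m ^ (1 - κ) ∧ 100 * h m ^ (1 - κ) ≤ R := by
  have t1 : Tendsto (fun m => 4 * L * h m ^ κ) atTop (𝓝 0) := by
    have := (pvcg_rpow_tendsto hlim hκ0).const_mul (4 * L)
    rwa [mul_zero] at this
  have t2 : Tendsto (fun m => 100 * h m ^ (1 - κ)) atTop (𝓝 0) := by
    have := (pvcg_rpow_tendsto hlim (sub_pos.2 hκ1)).const_mul 100
    rwa [mul_zero] at this
  filter_upwards [t1.eventually_le_const one_pos, t2.eventually_le_const hR] with m e1 e2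
  refine ⟨?_, e2⟩
  have e : h m = h m ^ κ * h m ^ (1 - κ) := by
    rw [← Real.rpow_add (h0 m)]
    have : κ + (1 - κ) = 1 := by ring
    rw [this, Real.rpow_one]
  have hp : 0 < h m ^ (1 - κ) := Real.rpow_pos_of_pos (h0 m) _
  calc 4 * L * h m = (4 * L * h m ^ κ) * h m ^ (1 - κ) := by
        conv_lhs => rw [e]
        ring
    _ ≤ 1 * h m ^ (1 - κ) := mul_le_mul_of_nonneg_right e1 hp.le
    _ = _ := one_mul _

/-- field `lim1` for `r m = (h m)^(1-κ)`, `Err m = (h m)^2` -/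
theorem pvcg_lim1 {h : ℕ → ℝ} (h0 : ∀ m, 0 < h m) (hlim : Tendsto h atTop (𝓝 0)) {κ c : ℝ} (hκ1 : κ < 1) (hc : 0 < c) :
    Tendsto (fun m => h m ^ (1 - κ) * h m ^ 2 * h m ^ (-2 + c)) atTop (𝓝 0) := by
  have e : (fun m => h m ^ (1 - κ) * h m ^ 2 * h m ^ (-2 + c)) = fun m => h m ^ (1 - κ + c) := by
    funext m
    rw [← Real.rpow_two, ← Real.rpow_add (h0 m), ← Real.rpow_add (h0 m)]
    congr 1
    ring
  rw [e]
  exact pvcg_rpow_tendsto hlim (by linarith)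

/-- field `lim2` for `r m = (h m)^(1-κ)` -/
theorem pvcg_lim2 {h : ℕ → ℝ} (h0 : ∀ m, 0 < h m) (hlim : Tendsto h atTop (𝓝 0)) {κ c : ℝ} (hκ : κ < c / 2) :
    Tendsto (fun m => h m ^ (1 - κ) * h m ^ (-1 + c / 2)) atTop (𝓝 0) := by
  have e : (fun m => h m ^ (1 - κ) * h m ^ (-1 + c / 2)) = fun m => h m ^ (c / 2 - κ) := by
    funext m
    rw [← Real.rpow_add (h0 m)]
    congr 1
    ring
  rw [e]
  exact pvcg_rpow_tendsto hlim (by linarith)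

/-- the standard sequence of mesoscopic scales -/
noncomputable def pvcgH (R : ℝ) (m : ℕ) : ℝ := R / 4 / 2 ^ m

/-- the standard exponent -/
noncomputable def pvcgKap (c : ℝ) : ℝ := min (c / 4) (1 / 2)

theorem pvcg_H_pos {R : ℝ} (hR : 0 < R) (m : ℕ) : 0 < pvcgH R m := by
  unfold pvcgH
  positivity

theorem pvcg_H_le {R : ℝ} (hR : 0 < R) (m : ℕ) : pvcgH R m ≤ R / 4 := by
  unfold pvcgH
  exact div_le_self (by positivity) (one_le_pow₀ (by norm_num))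

theorem pvcg_H_le' {R : ℝ} (hR : 0 < R) (m : ℕ) : pvcgH R m ≤ R := (pvcg_H_le hR m).trans (by linarith)

theorem pvcg_H_tendsto (R : ℝ) : Tendsto (pvcgH R) atTop (𝓝 0) := by
  unfold pvcgH
  exact tendsto_const_nhds.div_atTop (tendsto_pow_atTop_atTop_of_one_lt (by norm_num))

theorem pvcg_kap_pos {c : ℝ} (hc : 0 < c) : 0 < pvcgKap c := lt_min (by positivity) (by norm_num)

theorem pvcg_kap_lt_one (c : ℝ) : pvcgKap c < 1 := (min_le_right _ _).trans_lt (by norm_num)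

theorem pvcg_kap_lt {c : ℝ} (hc : 0 < c) : pvcgKap c < c / 2 := (min_le_left _ _).trans_lt (by linarith)

/-- **ALL deterministic fields of `PvbIn`** for the standard choice `h m = R/4/2^m`, `r m = (h m)^(1-κ)`, `Err m = (h m)^2`, `Gr m = pvcgGr x R (h m)`, `Box m = pvcgBox x R (h m)`,
`CG = pvcgCG R`, `Kp = pvcgKp 𝔐`, in the order of the structure -/
theorem pvcg_all {τ : Type} [Fintype τ] (𝔐 : PvbMenu τ) (x : ℂ) {R c : ℝ} (hR : 0 < R) (hc : 0 < c) :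
    (∀ m, 0 < pvcgH R m) ∧ (∀ m, 0 ≤ pvcgH R m ^ 2) ∧
    (∀ᶠ m in atTop, 4 * 𝔐.L * pvcgH R m ≤ pvcgH R m ^ (1 - pvcgKap c) ∧ 100 * pvcgH R m ^ (1 - pvcgKap c) ≤ R) ∧
    Tendsto (fun m => pvcgH R m ^ (1 - pvcgKap c) * pvcgH R m ^ 2 * pvcgH R m ^ (-2 + c)) atTop (𝓝 0) ∧
    Tendsto (fun m => pvcgH R m ^ (1 - pvcgKap c) * pvcgH R m ^ (-1 + c / 2)) atTop (𝓝 0) ∧
    (∀ m, ((pvcgGr x R (pvcgH R m)).card : ℝ) ≤ pvcgCG R * pvcgH R m ^ (-2 : ℝ)) ∧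
    (∀ m, ((pvcgBox x R (pvcgH R m)).card : ℝ) ≤ pvcgCG R * pvcgH R m ^ (-2 : ℝ)) ∧
    (∀ m w, ‖w - x‖ < 3 * R / 2 → pvbSqIdx (pvcgH R m) w ∈ pvcgBox x R (pvcgH R m)) ∧
    (∀ m w, pvbSqIdx (pvcgH R m) w ∈ pvcgBox x R (pvcgH R m) → ‖w - x‖ ≤ 2 * R) ∧
    (∀ m (p : ℤ × ℤ) (S : Finset (Finset (ℂ × τ))),
      (∀ q ∈ S, ∃ w, pvbSqIdx (pvcgH R m) w = p ∧ pvbCutPat 𝔐 (pvcgH R m) (pvcgGr x R (pvcgH R m)) w = q) → S.card ≤ pvcgKp 𝔐) :=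
  ⟨pvcg_H_pos hR, fun _ => sq_nonneg _, pvcg_par (pvcg_H_pos hR) (pvcg_H_tendsto R) (pvcg_kap_pos hc) (pvcg_kap_lt_one c) 𝔐.L hR,
    pvcg_lim1 (pvcg_H_pos hR) (pvcg_H_tendsto R) (pvcg_kap_lt_one c) hc, pvcg_lim2 (pvcg_H_pos hR) (pvcg_H_tendsto R) (pvcg_kap_lt hc),
    fun m => pvcg_Gr_card (pvcg_H_pos hR m) (pvcg_H_le' hR m), fun m => pvcg_Box_card (pvcg_H_pos hR m) (pvcg_H_le' hR m),
    fun m => pvcg_Box_cov (pvcg_H_pos hR m) (pvcg_H_le hR m), fun m => pvcg_Box_in (pvcg_H_pos hR m) (pvcg_H_le hR m),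
    fun m => pvcg_pat_card 𝔐 (pvcg_H_pos hR m)⟩

theorem pvcg_eqns_cite : True := by
  have := @pvcgPt.eq_1
  have := @pvcgWin.eq_1
  have := @pvcgGr.eq_1
  have := @pvcgBox.eq_1
  have := @pvcgCG.eq_1
  have := @pvcgKp.eq_1
  have := @pvcgH.eq_1
  have := @pvcgKap.eq_1
  trivial

end Claimed.Agent.R289
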